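import Vale.Agent.P236Z.Q.Defs

/-!
# P236, block Q: the norm of the coordinate on the diagonal, for the whole group
-/

open CategoryTheory MonoidalCategory Limits
open Functor.LaxMonoidal Functor.OplaxMonoidal
open Vale.Agent.P251 Vale.Agent.P251.M Vale.Agent.P251.I Vale.Agent.P236Z.Cat
  Vale.Agent.P236Z.Mod Vale.Agent.P236Z.Top

noncomputable section

namespace Vale.Agent.P236Z.Q

namespace Psg

variable {C D : Type 1} [Category.{0} C] [MonoidalCategory C] [Category.{0} D] [MonoidalCategory D]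

/-- the product of two points -/
def tp {A B : C} (a : 𝟙_ C ⟶ A) (b : 𝟙_ C ⟶ B) : 𝟙_ C ⟶ A ⊗ B := (λ_ _).inv ≫ (a ⊗ₘ b)

/-- the point `a` divides the point `b` -/
def Dv {A B : C} (a : 𝟙_ C ⟶ A) (b : 𝟙_ C ⟶ B) : Prop := ∃ g : A ⟶ B, a ≫ g = b

/-- the point `p` extends along `i` -/
def Ex {A B E : C} (i : A ⟶ B) (p : 𝟙_ C ⟶ E) : Prop :=
  ∃ y : B ⟶ A ⊗ E, i ≫ y = (ρ_ A).inv ≫ A ◁ p

section

variable {A B A' B' E E' : C} {a : 𝟙_ C ⟶ A} {b : 𝟙_ C ⟶ B} {a' : 𝟙_ C ⟶ A'} {b' : 𝟙_ C ⟶ B'}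

theorem Dv.refl (a : 𝟙_ C ⟶ A) : Dv a a := ⟨𝟙 _, Category.comp_id _⟩

theorem Dv.trans (h : Dv a b) (h' : Dv b a') : Dv a a' :=
  let ⟨g, hg⟩ := h
  let ⟨g', hg'⟩ := h'
  ⟨g ≫ g', by rw [← Category.assoc, hg, hg']⟩

theorem Dv.tp (h : Dv a a') (h' : Dv b b') : Dv (tp a b) (tp a' b') :=
  let ⟨g, hg⟩ := h
  let ⟨g', hg'⟩ := h'
  ⟨g ⊗ₘ g', by rw [Psg.tp, Psg.tp, Category.assoc, tensorHom_comp_tensorHom, hg, hg']⟩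

theorem dv_assoc (a : 𝟙_ C ⟶ A) (b : 𝟙_ C ⟶ B) (c : 𝟙_ C ⟶ E) :
    Dv (tp (tp a b) c) (tp a (tp b c)) :=
  ⟨(α_ A B E).hom, by
    have h1 : ((λ_ (𝟙_ C)).inv ≫ (a ⊗ₘ b)) ⊗ₘ c =
        (λ_ (𝟙_ C)).inv ▷ 𝟙_ C ≫ ((a ⊗ₘ b) ⊗ₘ c) := by
      rw [← tensorHom_id, tensorHom_comp_tensorHom, Category.id_comp]
    have h2 : a ⊗ₘ ((λ_ (𝟙_ C)).inv ≫ (b ⊗ₘ c)) =
        𝟙_ C ◁ (λ_ (𝟙_ C)).inv ≫ (a ⊗ₘ (b ⊗ₘ c)) := by
      rw [← id_tensorHom, tensorHom_comp_tensorHom, Category.id_comp]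
    rw [tp, tp, tp, tp, h1, h2, Category.assoc, Category.assoc, associator_naturality]
    simp only [← Category.assoc]
    refine congrArg (· ≫ _) ?_
    monoidal⟩

theorem dv_left (a : 𝟙_ C ⟶ A) : Dv (tp (𝟙 (𝟙_ C)) a) a :=
  ⟨(λ_ A).hom, by
    rw [tp, id_tensorHom, Category.assoc, leftUnitor_naturality, Iso.inv_hom_id_assoc]⟩

theorem dv_right (a : 𝟙_ C ⟶ A) : Dv a (tp a (𝟙 (𝟙_ C))) :=
  ⟨(ρ_ A).inv, by rw [tp, tensorHom_id, rightUnitor_inv_naturality, unitors_inv_equal]⟩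

theorem tp_eq (a : 𝟙_ C ⟶ A) (b : 𝟙_ C ⟶ B) : tp a b = b ≫ (λ_ B).inv ≫ a ▷ B := by
  rw [tp, tensorHom_def', leftUnitor_inv_naturality_assoc]

theorem pa_succ (a : 𝟙_ C ⟶ A) (k : ℕ) : pa a (k + 1) = tp a (pa a k) := (tp_eq a _).symm

theorem dv_pa (a : 𝟙_ C ⟶ A) (l : ℕ) : ∀ k : ℕ, Dv (tp (pa a k) (pa a l)) (pa a (l + k))
  | 0 => dv_left _
  | k + 1 => by
    have h := (dv_assoc a (pa a k) (pa a l)).trans ((Dv.refl a).tp (dv_pa a l k))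
    rw [← pa_succ, ← pa_succ] at h
    exact h

theorem dv_two (a : 𝟙_ C ⟶ A) : Dv (tp a a) (pa a 2) := by
  have h1 : Dv a (pa a (0 + 1)) := by
    rw [pa_succ]
    exact dv_right a
  have h := (Dv.refl a).tp h1
  rw [← pa_succ] at h
  exact h

theorem Ex.dv {i : A ⟶ B} {p : 𝟙_ C ⟶ E} {q : 𝟙_ C ⟶ E'} (h : Ex i p) (h' : Dv p q) : Ex i q :=
  let ⟨y, hy⟩ := h
  let ⟨g, hg⟩ := h'
  ⟨y ≫ A ◁ g, by
    rw [← Category.assoc, hy, Category.assoc, ← MonoidalCategory.whiskerLeft_comp, hg]⟩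

variable (N : C ⥤ D) [N.Monoidal]

theorem dv_map (a : 𝟙_ C ⟶ A) (b : 𝟙_ C ⟶ B) :
    Dv (ε N ≫ N.map (tp a b)) (tp (ε N ≫ N.map a) (ε N ≫ N.map b)) :=
  ⟨δ N A B, by
    rw [tp, tp, N.map_comp, Category.assoc, Category.assoc, ← δ_natural,
      ← tensorHom_comp_tensorHom, Functor.Monoidal.map_leftUnitor_inv]
    simp only [Category.assoc, Functor.Monoidal.μ_δ_assoc]
    rw [leftUnitor_inv_naturality_assoc, tensorHom_def' (ε N) (ε N), Category.assoc]⟩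

theorem Ex.step {i : A ⟶ B} {p : 𝟙_ C ⟶ E} (h : Ex i p) {A₁ B₁ R : D} {i₁ : A₁ ⟶ B₁}
    {dA : A₁ ⟶ N.obj A} {dB : B₁ ⟶ N.obj B} (hd : i₁ ≫ dB = dA ≫ N.map i)
    {w : N.obj A ⟶ A₁ ⊗ R} {r : 𝟙_ D ⟶ R} (hw : dA ≫ w = (ρ_ A₁).inv ≫ A₁ ◁ r) :
    Ex i₁ (tp r (ε N ≫ N.map p)) := by
  obtain ⟨y, hy⟩ := h
  refine ⟨dB ≫ N.map y ≫ δ N A E ≫ w ▷ N.obj E ≫ (α_ _ _ _).hom, ?_⟩
  rw [← Category.assoc, hd, Category.assoc, ← N.map_comp_assoc, hy, N.map_comp, Category.assoc,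
    ← δ_natural_right_assoc, Functor.Monoidal.map_rightUnitor_inv]
  simp only [Category.assoc, Functor.Monoidal.μ_δ_assoc]
  rw [← MonoidalCategory.whiskerLeft_comp_assoc, rightUnitor_inv_naturality_assoc,
    ← whisker_exchange_assoc, ← comp_whiskerRight_assoc, hw, tp_eq]
  monoidal

end

theorem up_eq {W : Tower} (m : Mdl W) :
    ∀ k : ℕ, ∃ q : 𝟙_ W.T₂.C ⟶ Pw W.L (0 + k), Dv (pa W.a k) q ∧ m.up 0 k = q ▷ m.X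
  | 0 => ⟨𝟙 _, Dv.refl _, (id_whiskerRight _ _).symm⟩
  | k + 1 => by
    obtain ⟨q, h1, h2⟩ := up_eq m k
    refine ⟨tp W.a q, ?_, ?_⟩
    · rw [pa_succ]
      exact (Dv.refl _).tp h1
    · rw [m.up_succ, h2, tp_eq]
      exact (comp_whiskerRight _ _ _).symm

theorem dv_st {W : Tower} (m : Mdl W) (k : ℕ) : Dv (tp (pa W.a k) m.Y.one) (m.Y.one ≫ m.st k) := by
  obtain ⟨q, h1, h2⟩ := up_eq m k
  have h := h1.tp (Dv.refl m.Y.one)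
  rw [tp_eq q] at h
  rw [Mdl.st, h2]
  exact h

end Psg

open Psg

theorem psg : PSG := by
  intro hN W G m x hx
  obtain ⟨ω₁, h₁⟩ := G.p1
  obtain ⟨ω₂, h₂⟩ := G.p2
  have hΦ : Dv (ε W.s₂.N ≫ W.s₂.N.map W.s₁.ar) (pa W.a 3) :=
    (hN W).imp fun _ h => (Category.assoc _ _ _).trans h
  have e0 : Ex (W.F.S.map (i1 ≫ i2)) (MonObj.one : 𝟙_ W.T₀.C ⟶ m.P.E) := ⟨x, hx⟩
  have e1 := e0.step W.s₁.N (G.d1.1 (i1 ≫ i2)) (r := tp W.s₁.ar W.s₁.ar) h₁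
  have e2 := e1.step W.s₂.N (G.d2.1 (i1 ≫ i2)) (r := tp W.s₂.ar W.s₂.ar) h₂
  have hι : Dv (ε W.s₂.N ≫ W.s₂.N.map (ε W.s₁.N ≫ W.s₁.N.map
      (MonObj.one : 𝟙_ W.T₀.C ⟶ m.P.E))) m.Y.one := ⟨m.Y.ι, m.Y.ι_one⟩
  exact e2.dv ((dv_two _).tp ((dv_map _ _ _).trans
    (((((dv_map _ _ _).trans (hΦ.tp hΦ)).trans (dv_pa W.a 3 3)).tp hι).trans (dv_st m 6))))

end Vale.Agent.P236Z.Q
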