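import Vale.Agent.P236Z.Q.Defs
import Vale.Agent.P236Z.Cat.Add
import Vale.Agent.P236Z.Cat.Wir2
import Vale.Agent.P236Z.Mod.Cop
import Vale.Agent.P251.M.SpaceCells

/-!
# P236, block Q: the norm of the coordinate on the diagonal, for the group of order three
-/

open CategoryTheory MonoidalCategory Limits
open Functor.LaxMonoidal Functor.OplaxMonoidal
open Vale.Agent.P251 Vale.Agent.P251.M Vale.Agent.P251.I Vale.Agent.P236Z.Cat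
  Vale.Agent.P236Z.Mod Vale.Agent.P236Z.Top
open scoped CategoryTheory.Obj

noncomputable section

namespace Vale.Agent.P236Z.Q

namespace PsiAux

section mon

variable {C D : Type 1} [Category.{0} C] [MonoidalCategory C] [Category.{0} D] [MonoidalCategory D]
  (U : C ⥤ D) [U.Monoidal]

theorem sq_eq {L : C} (a : 𝟙_ C ⟶ L) : (λ_ _).inv ≫ (a ⊗ₘ a) ≫ L ◁ (ρ_ L).inv =
    ((λ_ _).inv ≫ a ▷ 𝟙_ C) ≫ (λ_ _).inv ≫ a ▷ (L ⊗ 𝟙_ C) := by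
  rw [tensorHom_def', Category.assoc, ← whisker_exchange]
  monoidal

theorem sq_map {L : C} (a : 𝟙_ C ⟶ L) :
    (λ_ _).inv ≫ ((ε U ≫ U.map a) ⊗ₘ (ε U ≫ U.map a)) ≫ μ U L L =
      ε U ≫ U.map ((λ_ _).inv ≫ (a ⊗ₘ a)) := by
  rw [← tensorHom_comp_tensorHom, Category.assoc, μ_natural, tensorHom_def', Category.assoc,
    ← leftUnitor_inv_naturality_assoc, left_unitality_inv_assoc, U.map_comp]

theorem map_zero_r [Preadditive C] [Preadditive D] [MonoidalPreadditive D] {X Y : C} {f : X ⟶ Y}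
    (h : U.map f = 0) (Z : C) : U.map (f ▷ Z) = 0 := by
  rw [Functor.Monoidal.map_whiskerRight, h, MonoidalPreadditive.zero_whiskerRight, zero_comp,
    comp_zero]

theorem map_zero_l [Preadditive C] [Preadditive D] [MonoidalPreadditive D] {X Y : C} {f : X ⟶ Y}
    (h : U.map f = 0) (Z : C) : U.map (Z ◁ f) = 0 := by
  rw [Functor.Monoidal.map_whiskerLeft, h, MonoidalPreadditive.whiskerLeft_zero, zero_comp,
    comp_zero]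

theorem dg_mk {A A' B Q X Z : C} {d : A ⟶ A'} {w : A' ⟶ A ⊗ B} {b : 𝟙_ C ⟶ B}
    (h : d ≫ w = (ρ_ A).inv ≫ A ◁ b) (k : B ⊗ X ⟶ Z) {E : C} (f : Q ⟶ E) (n : E ⟶ X) :
    (d ⊗ₘ f) ≫ (w ⊗ₘ n) ≫ (α_ _ _ _).hom ≫ A ◁ k = A ◁ (f ≫ n ≫ (λ_ X).inv ≫ b ▷ X ≫ k) := by
  rw [tensorHom_comp_tensorHom_assoc, h, tensorHom_def']
  monoidal

end mon

variable {W : Tower}

theorem γ_ten {X Y : W.T₂.C} (h : W.s₂.γ X = 𝟙 _) (h' : W.s₂.γ Y = 𝟙 _) :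
    W.s₂.γ (X ⊗ Y) = 𝟙 _ := by
  rw [← cancel_epi (μ W.s₂.U.F X Y), W.s₂.μ_γ, h, h', id_tensorHom_id, Category.id_comp,
    Category.comp_id]

theorem U_ar (m : Mdl W) : W.s₁.U.F.map W.s₁.ar = 0 := by
  have h : Conn 1 (W.s₁.U.F.obj W.s₁.Lr) :=
    (((unit_conn W.F).shift 1 1 rfl).shift 1 2 rfl |>.mono (by norm_num)).of_iso
      ((tensorUnitShiftIso _ 1).symm ≪≫ m.e.symm ≪≫ (W.s₁.JU.app (Pl _ hv0)).symm)
  rw [← cancel_epi (ε W.s₁.U.F), ← cancel_epi ((shiftFunctorZero _ ℤ).hom.app _), comp_zero,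
    comp_zero]
  exact h 0 one_pos _

theorem N_one (m : Mdl W) : ε W.s₁.N ≫ W.s₁.N.map MonObj.one ≫ m.nm₁ = m.one₁ := by
  have h : (ε W.s₁.N ≫ W.s₁.N.map MonObj.one) ≫ in0 W.s₂ (W.s₁.N.obj m.P.E) =
      ε W.s₂.U.F ≫ W.s₂.U.F.map MonObj.one := IsMonHom.one_hom (in0 W.s₂ (W.s₁.N.obj m.P.E))
  rw [Category.assoc] at h
  rw [Mdl.nm₁, reassoc_of% h, Mdl.one₁, ← m.Y.ι_one, Functor.map_comp]

theorem ex_mk (G : W.Geo) (m : Mdl W) :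
    ∃ k : (W.s₁.Lr ⊗ W.s₁.Lr) ⊗ m.X₁ ⟶ W.s₂.U.F.obj (m.Z (0 + 22)),
      (λ_ _).inv ≫ ((λ_ _).inv ≫ (W.s₁.ar ⊗ₘ W.s₁.ar)) ▷ m.X₁ ≫ k = W.s₂.U.F.map (m.st 22) ∧
      _ ◁ W.s₂.γ m.X ≫ k = k ≫ W.s₂.γ _ ∧ W.s₁.U.F.map k = 0 := by
  obtain ⟨-, h1, h2⟩ := G.c9
  have h3 : W.s₁.ar ≫ W.UL.inv = ε W.s₂.U.F ≫ W.s₂.U.F.map W.a := by
    rw [Iso.comp_inv_eq, Category.assoc, h2, Functor.Monoidal.ε_η_assoc]
  have h4 : W.s₂.γ (W.L ⊗ W.L ⊗ 𝟙_ _) = 𝟙 _ :=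
    γ_ten h1 (γ_ten h1 (by rw [Step.γ, W.L₂.t.one, W.s₂.U.F.map_id]))
  have h5 : W.s₁.U.F.map (W.s₂.U.F.map W.a) = 0 := by
    rw [← cancel_mono (W.s₁.U.F.map W.UL.hom), ← Functor.map_comp, h2, Functor.map_comp, U_ar m,
      comp_zero, zero_comp]
  obtain ⟨n, h6, h7⟩ : ∃ n : (W.L ⊗ W.L ⊗ 𝟙_ _) ⊗ m.X ⟶ m.Z (0 + 22),
      (λ_ _).inv ≫ ((λ_ _).inv ≫ (W.a ⊗ₘ W.a) ≫ W.L ◁ (ρ_ W.L).inv) ▷ m.X ≫ n = m.st 22 ∧
        W.s₁.U.F.map (W.s₂.U.F.map n) = 0 := by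
    refine ⟨m.up (0 + 2) 20, ?_, ?_⟩
    · rw [sq_eq, comp_whiskerRight]
      exact congrArg ((λ_ m.X).inv ≫ ·) ((congrArg (· ≫ m.up (0 + 2) 20)
        (congrArg (· ≫ m.up1 (0 + 1)) (Category.id_comp _).symm)).trans
          ((m.up_up 0 2 20).trans (Category.comp_id _)))
    · have := map_zero_r (W.s₂.U.F ⋙ W.s₁.U.F)
        (f := (λ_ _).inv ≫ W.a ▷ Pw W.L (0 + 2 + 19))
        (by rw [Functor.map_comp, map_zero_r (W.s₂.U.F ⋙ W.s₁.U.F) h5, comp_zero]) m.X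
      refine ((W.s₂.U.F ⋙ W.s₁.U.F).map_comp (m.up (0 + 2) 19) (m.up1 _)).trans ?_
      exact (congrArg (_ ≫ ·) this).trans comp_zero
  refine ⟨((W.UL.inv ⊗ₘ W.UL.inv) ≫ μ W.s₂.U.F _ _ ≫ W.s₂.U.F.map (W.L ◁ (ρ_ W.L).inv)) ▷ m.X₁ ≫
    μ W.s₂.U.F _ _ ≫ W.s₂.U.F.map n, ?_, ?_, ?_⟩
  · rw [← comp_whiskerRight_assoc, Category.assoc, tensorHom_comp_tensorHom_assoc, h3,
      reassoc_of% sq_map, ← Functor.map_comp, comp_whiskerRight, Category.assoc,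
      μ_natural_left_assoc, left_unitality_inv_assoc, ← h6, Category.assoc, Functor.map_comp,
      Functor.map_comp]
  · rw [whisker_exchange_assoc, Category.assoc, Category.assoc, W.s₂.γ_nat, W.s₂.μ_γ_assoc, h4,
      id_tensorHom]
  · rw [Functor.map_comp, Functor.map_comp, h7, comp_zero, comp_zero]

/-- the diagonal -/
def dg (W : Tower) (X : FCat) : W.L₁.tv.F.obj (W.F.S.obj X) ⟶ W.s₁.N.obj (W.F.S.obj X) :=
  W.s₁.dg X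

@[reassoc]
theorem dg_nat (G : W.Geo) {X Y : FCat} (f : X ⟶ Y) :
    dg W X ≫ W.s₁.N.map (W.F.S.map f) = W.L₁.tv.F.map (W.F.S.map f) ≫ dg W Y := (G.d1.1 f).symm

@[reassoc]
theorem dg_mul (G : W.Geo) (X Y : FCat) :
    dg W (X ⊗ Y) ≫ W.s₁.N.map (δ W.F.S X Y) ≫ δ W.s₁.N _ _ =
      W.L₁.tv.F.map (δ W.F.S X Y) ≫ δ W.L₁.tv.F _ _ ≫ (dg W X ⊗ₘ dg W Y) := by
  have h : μ W.L₁.tv.F _ _ ≫ W.L₁.tv.F.map (μ W.F.S X Y) ≫ dg W (X ⊗ Y) =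
    (dg W X ⊗ₘ dg W Y) ≫ μ W.s₁.N _ _ ≫ W.s₁.N.map (𝟙 _ ≫ μ W.F.S X Y) := G.d1.2.1 X Y
  rw [← cancel_epi (W.L₁.tv.F.map (μ W.F.S X Y)), ← cancel_epi (μ W.L₁.tv.F _ _), reassoc_of% h,
    ← Functor.map_comp_assoc, ← Functor.map_comp_assoc]
  simp

end PsiAux

open PsiAux in
theorem psi : PSI := by
  intro W G m c x τ hx hτ
  obtain ⟨w, hw⟩ : ∃ w : W.s₁.N.obj (W.F.S.obj CCF) ⟶
      W.L₁.tv.F.obj (W.F.S.obj CCF) ⊗ (W.s₁.Lr ⊗ W.s₁.Lr),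
      dg W CCF ≫ w = (ρ_ _).inv ≫ _ ◁ ((λ_ _).inv ≫ (W.s₁.ar ⊗ₘ W.s₁.ar)) :=
    G.p1.elim fun w hw => ⟨w.hom, hw⟩
  obtain ⟨k, k1, k2, k3⟩ := ex_mk G m
  obtain ⟨M, hM⟩ : ∃ M, M = (w ⊗ₘ m.nm₁) ≫ (α_ _ _ _).hom ≫ _ ◁ k := ⟨_, rfl⟩
  have m1 : ∀ {Q : W.T₁.C} (f : Q ⟶ W.s₁.N.obj m.P.E), (dg W CCF ⊗ₘ f) ≫ M =
      _ ◁ (f ≫ m.nm₁ ≫ W.s₂.U.F.map (m.st 22)) := fun f => by rw [hM, dg_mk hw, k1]
  have m2 : M ≫ _ ◁ W.s₂.γ _ = _ ◁ W.s₁.N.map m.P.ρ ≫ M := by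
    have h : W.s₁.N.map m.P.ρ ≫ m.nm₁ = m.nm₁ ≫ W.s₂.γ m.X :=
      m.Y.nm₁_conj.trans (Category.assoc _ _ _).symm
    rw [hM, whiskerLeft_comp_tensorHom_assoc, h, ← tensorHom_comp_whiskerLeft, Category.assoc,
      Category.assoc, Category.assoc, associator_naturality_right_assoc,
      ← MonoidalCategory.whiskerLeft_comp, ← MonoidalCategory.whiskerLeft_comp, k2]
  have m3 : W.s₁.U.F.map M = 0 := by
    rw [hM, Functor.map_comp, Functor.map_comp, map_zero_l _ k3, comp_zero, comp_zero]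
  refine ⟨dg W B3 ≫ W.s₁.N.map x ≫ δ W.s₁.N _ _ ≫ M, ?_, ?_⟩
  · rw [← dg_nat_assoc G, ← Functor.map_comp_assoc, hx, Functor.map_comp, Category.assoc,
      ← δ_natural_right_assoc, Functor.Monoidal.map_rightUnitor_inv, Category.assoc,
      Category.assoc, Functor.Monoidal.μ_δ_assoc, rightUnitor_inv_naturality_assoc,
      ← MonoidalCategory.whiskerLeft_comp_assoc, ← tensorHom_def_assoc, m1, Category.assoc,
      reassoc_of% N_one m]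
  · have h0 : ∀ t, dg W B3 ≫ W.s₁.tr t ≫ δ W.s₁.N _ _ ≫ M = 0 := fun t => by
      rw [← W.s₁.tr_comp, W.s₁.U.F.map_comp, m3, comp_zero, comp_zero, comp_zero, W.s₁.tr_zero]
    rw [Category.assoc, Category.assoc, Category.assoc, m2, δ_natural_right_assoc,
      ← Functor.map_comp_assoc, hτ, W.s₁.N_add, Preadditive.add_comp, Preadditive.add_comp,
      Preadditive.comp_add, Preadditive.comp_add, h0, add_zero, Functor.map_comp, Functor.map_comp,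
      Category.assoc, Category.assoc, dg_nat_assoc G, ← δ_natural_right_assoc, dg_mul_assoc G,
      tensorHom_comp_whiskerLeft_assoc, m1, Functor.map_comp, Category.assoc, Category.assoc]
    rfl

end Vale.Agent.P236Z.Q
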