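import Vale.Agent.P236Z.Q.Defs2

/-!
# P236, block Q: the two cell complex of the class of stem three

`ald : ALD`.
-/

open CategoryTheory MonoidalCategory Limits Pretriangulated
open Functor.LaxMonoidal Functor.OplaxMonoidal
open Vale.Agent.P251 Vale.Agent.P251.T Vale.Agent.P251.G Vale.Agent.P251.M Vale.Agent.P251.S
  Vale.Agent.P251.F Vale.Agent.P251.I Vale.Agent.P251.X Vale.Agent.P236Z.Cat Vale.Agent.P236Z.Mod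
  Vale.Agent.P236Z.Top

noncomputable section

namespace Vale.Agent.P236Z.Q

namespace Ald

/-- the two cell complex formed by the bottom cell and twice the top cell -/
theorem cell {T : TTC} {S2 S4 S6 P2 P3 : T.C} [IsInv S2] {i₁ : S2 ⟶ P2} {q₂ : P2 ⟶ S4}
    {d₂ : S4 ⟶ S2⟦(1 : ℤ)⟧} {i₂ : P2 ⟶ P3} {q₃ : P3 ⟶ S6} {d₃ : S6 ⟶ P2⟦(1 : ℤ)⟧}
    (D2 : H.Dist i₁ q₂ d₂) (D3 : H.Dist i₂ q₃ d₃) (two : (2 : ℤ) • (d₃ ≫ q₂⟦(1 : ℤ)⟧') = 0)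
    (e : S2 ⊗ S4 ≅ S6) :
    ∃ (C : T.C) (i : 𝟙_ T.C ⟶ C) (q : C ⟶ S4) (a : S4 ⟶ (𝟙_ T.C)⟦(1 : ℤ)⟧) (j : S2 ⊗ C ⟶ P3),
      H.Dist i q a ∧ S2 ◁ i ≫ j = (ρ_ _).hom ≫ i₁ ≫ i₂ ∧
        j ≫ q₃ ≫ e.inv = (2 : ℤ) • (S2 ◁ q) := by
  obtain ⟨b, hb⟩ := D2.rot.lift₁ ((2 : ℤ) • d₃) (by rw [Preadditive.zsmul_comp, two])
  obtain ⟨a, ha⟩ := whiskerLeft_surj S2 (X := S4) (Y := (𝟙_ T.C)⟦(1 : ℤ)⟧)
    (e.hom ≫ (-b) ≫ (ρ_ S2).inv⟦(1 : ℤ)⟧' ≫ ((tensorLeft S2).commShiftIso (1 : ℤ)).inv.app _)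
  obtain ⟨C, i, q, D⟩ := H.exists_mid a
  have D' : H.Dist (S2 ◁ i) (S2 ◁ q)
      (S2 ◁ a ≫ ((tensorLeft S2).commShiftIso (1 : ℤ)).hom.app (𝟙_ T.C)) :=
    P251.S.dist_whiskerLeft S2 D
  obtain ⟨j, h1, h2⟩ := D'.map₂ D3 ((ρ_ S2).hom ≫ i₁) ((2 : ℤ) • e.hom) (by
    rw [ha, Preadditive.zsmul_comp, ← Preadditive.comp_zsmul, ← hb]
    simp only [Category.assoc, Iso.inv_hom_id_app_assoc]
    rw [← Functor.map_comp, Iso.inv_hom_id_assoc, Preadditive.neg_comp, Preadditive.comp_neg b])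
  refine ⟨C, i, q, a, j, D, by rw [h1, Category.assoc], ?_⟩
  rw [← Category.assoc, ← h2, Category.assoc, Preadditive.zsmul_comp, e.hom_inv_id,
    Preadditive.comp_zsmul, Category.comp_id]

section Cancel

variable {T₀ T : TTC} (tv : ExF T₀ T) {S2 S' S4 S6 C P3 : T₀.C}

theorem isInv (u : S2 ⊗ S' ≅ 𝟙_ T₀.C) : IsInv (tv.F.obj S2) :=
  IsInv.of_inverse (Functor.Monoidal.μIso tv.F S2 S' ≪≫ tv.F.mapIso u ≪≫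
    (Functor.Monoidal.εIso tv.F).symm)

/-- cancellation of the bottom sphere -/
theorem cancel (u : S2 ⊗ S' ≅ 𝟙_ T₀.C) {i : 𝟙_ T₀.C ⟶ C} {j : S2 ⊗ C ⟶ P3} {b : S2 ⟶ P3}
    (hj : S2 ◁ i ≫ j = (ρ_ _).hom ≫ b) {R : T.C} (P : tv.F.obj P3 ⟶ tv.F.obj S2 ⊗ R)
    {x : 𝟙_ T.C ⟶ R} (hP : tv.F.map b ≫ P = (ρ_ _).inv ≫ _ ◁ x) :
    ∃ P₀ : tv.F.obj C ⟶ R, tv.F.obj S2 ◁ P₀ = μ tv.F S2 C ≫ tv.F.map j ≫ P ∧
      ε tv.F ≫ tv.F.map i ≫ P₀ = x := by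
  have := isInv tv u
  obtain ⟨P₀, h⟩ := whiskerLeft_surj (tv.F.obj S2) (μ tv.F S2 C ≫ tv.F.map j ≫ P)
  refine ⟨P₀, h, whiskerLeft_inj (tv.F.obj S2) ?_⟩
  rw [MonoidalCategory.whiskerLeft_comp, MonoidalCategory.whiskerLeft_comp, h,
    μ_natural_right_assoc, ← Functor.map_comp_assoc, hj, Functor.map_comp_assoc, hP,
    ← Functor.LaxMonoidal.right_unitality_assoc, Iso.hom_inv_id_assoc]

/-- cancellation of the bottom sphere in the formula for the transform -/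
theorem cancel_var (u : S2 ⊗ S' ≅ 𝟙_ T₀.C) {q : C ⟶ S4} {j : S2 ⊗ C ⟶ P3} {r : P3 ⟶ S2 ⊗ S4}
    (hj : j ≫ r = (2 : ℤ) • (S2 ◁ q)) {R : T.C} {P : tv.F.obj P3 ⟶ tv.F.obj S2 ⊗ R}
    {P₀ : tv.F.obj C ⟶ R} (h : tv.F.obj S2 ◁ P₀ = μ tv.F S2 C ≫ tv.F.map j ≫ P)
    {g : R ⟶ R} {y : tv.F.obj S4 ⟶ R}
    (hP : P ≫ _ ◁ g = P + tv.F.map r ≫ δ tv.F _ _ ≫ _ ◁ y) :
    P₀ ≫ g = P₀ + (2 : ℤ) • (tv.F.map q ≫ y) := by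
  have := isInv tv u
  refine whiskerLeft_inj (tv.F.obj S2) ?_
  have e : tv.F.obj S2 ◁ (P₀ + (2 : ℤ) • (tv.F.map q ≫ y)) =
      tv.F.obj S2 ◁ P₀ + (2 : ℤ) • (tv.F.obj S2 ◁ (tv.F.map q ≫ y)) :=
    ((tensorLeft (tv.F.obj S2)).map_add).trans
      (congrArg (tv.F.obj S2 ◁ P₀ + ·) ((tensorLeft (tv.F.obj S2)).map_zsmul))
  rw [e, MonoidalCategory.whiskerLeft_comp, h, Category.assoc, Category.assoc, hP,
    Preadditive.comp_add, Preadditive.comp_add, ← Functor.map_comp_assoc, hj, Functor.map_zsmul,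
    Preadditive.zsmul_comp, Preadditive.comp_zsmul, ← μ_natural_right_assoc,
    Functor.Monoidal.μ_δ_assoc, MonoidalCategory.whiskerLeft_comp]

/-- the image of a two cell complex and its attaching map -/
theorem fib {i : 𝟙_ T₀.C ⟶ C} {q : C ⟶ S4} {a : S4 ⟶ (𝟙_ T₀.C)⟦(1 : ℤ)⟧} (D : H.Dist i q a) :
    ∃ (A : T.C) (α : A ⟶ 𝟙_ T.C) (q' : tv.F.obj C ⟶ A⟦(1 : ℤ)⟧) (k : A⟦(1 : ℤ)⟧ ≅ tv.F.obj S4),
      H.Dist α (ε tv.F ≫ tv.F.map i) q' ∧ q' ≫ k.hom = tv.F.map q := by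
  have D1 : H.Dist (tv.F.map i) (tv.F.map q)
      (tv.F.map a ≫ (tv.F.commShiftIso (1 : ℤ)).hom.app _) := tv.F.map_distinguished _ D
  have D2 := Tr.dist_iso D1 (Functor.Monoidal.εIso tv.F) (Iso.refl _) (Iso.refl _)
    (f' := ε tv.F ≫ tv.F.map i) (g' := tv.F.map q) (Category.comp_id _)
    ((Category.comp_id _).trans (Category.id_comp _).symm)
  obtain ⟨A, α, q', D'⟩ := H.exists_fibre (ε tv.F ≫ tv.F.map i)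
  obtain ⟨c, h1, h2⟩ := D'.rot.map₃ D2 (𝟙 _) (𝟙 _)
    ((Category.comp_id _).trans (Category.id_comp _).symm)
  rw [Category.id_comp] at h1
  rw [CategoryTheory.Functor.map_id, Category.comp_id] at h2
  have := D'.rot.iso₃ D2 c h1 h2
  exact ⟨A, α, q', asIso c, D', h1⟩

/-- the image of a sphere -/
def sph {n : ℤ} (e : S4 ≅ (𝟙_ T₀.C)⟦n⟧) : tv.F.obj S4 ≅ (𝟙_ T.C)⟦n⟧ :=
  tv.F.mapIso e ≪≫ (tv.F.commShiftIso n).app _ ≪≫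
    (shiftFunctor T.C n).mapIso (Functor.Monoidal.εIso tv.F).symm

end Cancel

end Ald

open Ald

/-- (ALD) -/
theorem ald : ALD := by
  intro cpg xcp nl psi psg W geo m
  obtain ⟨c⟩ := cpg W
  obtain ⟨x, k, hx, hg⟩ := xcp W m c
  obtain ⟨τ, hτ, hc⟩ := hg m.P.ρ
  obtain ⟨ψ, hψ, hγ⟩ := psi W geo m c x τ hx hτ
  obtain ⟨Ψ, hΨ⟩ := psg nl W geo m x hx
  let u : W.F.S.obj CCF ⊗ (stdEven W.T₀.C).L' ≅ 𝟙_ W.T₀.C :=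
    whiskerRightIso m.e _ ≪≫ (stdEven W.T₀.C).j
  have := IsInv.of_inverse u
  obtain ⟨C, i, q, a, j, D, hi, hq⟩ := cell c.D2 c.D3 c.two3
    (Functor.Monoidal.μIso W.F.S CCF (CCF ⊗ CCF))
  rw [← Functor.map_comp] at hi
  obtain ⟨P₂, -, h₂⟩ := cancel W.L₂.tv u hi Ψ hΨ
  obtain ⟨P₁, g₁, h₁⟩ := cancel W.L₁.tv u hi ψ hψ
  have hv := cancel_var W.L₁.tv u hq g₁ hγ
  obtain ⟨A, α, q', k₂, D', hk⟩ := fib W.L₂.tv D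
  let e4 : W.F.S.obj (CCF ⊗ CCF) ≅ (𝟙_ W.T₀.C)⟦(4 : ℤ)⟧ :=
    k.symm ≪≫ (stdEven W.T₀.C).sphIso (Iso.refl _) 2
  have hn : ∀ {X Y : W.T₀.C} (f : X ⟶ Y), W.s₂.U.F.map (W.L₂.tv.F.map f) ≫ W.s₂.tvU.hom.app Y =
      W.s₂.tvU.hom.app X ≫ W.L₁.tv.F.map f := fun f => W.s₂.tvU.hom.naturality f
  have he : ε W.s₂.U.F ≫ W.s₂.U.F.map (ε W.L₂.tv.F) ≫ W.s₂.tvU.hom.app _ = ε W.L₁.tv.F :=
    (Category.assoc _ _ _).symm.trans (NatTrans.IsMonoidal.unit (τ := W.s₂.tvU.hom))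
  refine ⟨{
    A := A, C := W.L₂.tv.F.obj C, α := α, i := ε W.L₂.tv.F ≫ W.L₂.tv.F.map i, q := q', D := D'
    hC := W.L₂.tv_h C
    sph := nonempty_iso_of_shift 1 ⟨k₂ ≪≫ sph W.L₂.tv e4 ≪≫
      (shiftFunctorAdd' W.T₂.C 3 1 4 (by norm_num)).app _⟩
    two := ?_
    ψ := W.s₂.tvU.hom.app C ≫ P₁
    res := ?_
    κ := (sph W.L₁.tv e4).symm
    τ := τ
    unit := ?_
    k := W.s₂.U.F.mapIso k₂ ≪≫ W.s₂.tvU.app _ ≪≫ sph W.L₁.tv e4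
    var := ?_ }⟩
  · rw [← h₂, ← Category.assoc (ε _), ← Category.assoc, D'.zero₁₂, zero_comp]
  · rw [← cancel_epi (ε W.s₂.U.F), Functor.map_comp, Category.assoc, reassoc_of% hn,
      reassoc_of% he, h₁, Mdl.one₁, Category.assoc, Functor.map_comp]
  · rw [← m.isU₀_iso k.hom, m.isU₀_iff, hc, m.A.ser 2]
    exact (Units.isUnit _).mul m.A.lt.unit
  · have e : W.s₂.U.F.map q' ≫ (W.s₂.U.F.mapIso k₂ ≪≫ W.s₂.tvU.app _ ≪≫ sph W.L₁.tv e4).hom ≫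
        m.cls (sph W.L₁.tv e4).symm τ ≫ W.s₂.U.F.map (m.st 22) =
        W.s₂.tvU.hom.app C ≫ W.L₁.tv.F.map q ≫ W.s₁.dg (CCF ⊗ CCF) ≫ W.s₁.N.map τ ≫ m.nm₁ ≫
          W.s₂.U.F.map (m.st 22) := by
      rw [← reassoc_of% hn, ← hk, Functor.map_comp, Mdl.cls]
      simp only [Iso.trans_hom, Functor.mapIso_hom, Iso.app_hom, Iso.symm_hom, Category.assoc,
        Iso.hom_inv_id_assoc]
    rw [e, Category.assoc, hv, Preadditive.comp_add, Preadditive.comp_zsmul]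

end Vale.Agent.P236Z.Q
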