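import Vale.Agent.P236Z.Q.Defs2
import Vale.Agent.P236Z.Top.Per
import Vale.Agent.P236Z.Cat.Wir2
import Vale.Agent.P236Z.Cat.Proj

/-!
# P236, block Q: free cells and circles

`Free s η` : the map `η : B ⟶ U F` exhibits `F` as induced from `B`. `Cir s` : an object `P` with
two free cells attached by `1 - g` (a circle with the rotation action, tensored with a sphere).
-/

open CategoryTheory MonoidalCategory Limits Pretriangulated
open Functor.LaxMonoidal Functor.OplaxMonoidal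
open Vale.Agent.P251 Vale.Agent.P251.T Vale.Agent.P251.G Vale.Agent.P251.M Vale.Agent.P251.S
  Vale.Agent.P251.I Vale.Agent.P236Z.Cat Vale.Agent.P236Z.Top

set_option linter.unusedSectionVars false

noncomputable section

namespace Vale.Agent.P236Z.Q

section Inv

variable {C : Type 1} [Category.{0} C] [MonoidalCategory C] [SymmetricCategory C]

theorem whiskerRight_inj (N : C) [IsInv N] {X Y : C} {f g : X ⟶ Y} (h : f ▷ N = g ▷ N) : f = g := by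
  apply whiskerLeft_inj N
  rw [← cancel_mono (β_ N Y).hom, BraidedCategory.braiding_naturality_right,
    BraidedCategory.braiding_naturality_right, h]

theorem isInv_of_unit {N : C} (h : IsUnit (toSkeleton N)) : IsInv N := by
  obtain ⟨x, hx⟩ := h.exists_right_inv
  refine IsInv.of_inverse (L' := (fromSkeleton C).obj x) (Skeleton.isoOfEq ?_)
  rw [Skeleton.toSkeleton_tensorObj, toSkeleton_fromSkeleton_obj, hx, Skeleton.one_eq]

end Inv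

theorem sk_unit (T : TTC) (n : ℤ) : IsUnit (sk T n) :=
  IsUnit.of_mul_eq_one (sk T (-n)) (by rw [sk_add, neg_add_cancel, sk_zero])

theorem sk_shift {T : TTC} (X : T.C) (n : ℤ) : toSkeleton (X⟦n⟧) = sk T n * toSkeleton X := by
  rw [sk, ← Skeleton.toSkeleton_tensorObj]
  exact congr_toSkeleton_of_iso (sphTensor n X).symm

variable {T₀ : TTC} {F : I.SpaceFunctor T₀.C} {T T' : TTC} {K : Type 1} [Category.{0} K]
  [MonoidalCategory K] [SymmetricCategory K] {tK : Tw K} {u : K ⥤ I.FCat} {v : I.FCat ⥤ K}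
  [v.Braided] {hv : ∀ X, (tK.h (v.obj X)).hom = 𝟙 _} {L : Lvl T₀ F T tK u v}
  {L' : Lvl T₀ F T' (Rt.tw tK) (Rt.U tK ⋙ u) (Rt.triv v hv)} (s : Step L L')

theorem h_sph (M : Lvl T₀ F T tK u v) (n : ℤ) : (M.t.h ((𝟙_ T.C)⟦n⟧)).hom = 𝟙 _ := by
  let e : M.tv.F.obj ((𝟙_ T₀.C)⟦n⟧) ≅ (𝟙_ T.C)⟦n⟧ := (M.tv.F.commShiftIso n).app _ ≪≫
    (shiftFunctor T.C n).mapIso (Functor.Monoidal.εIso M.tv.F).symm
  rw [← cancel_epi e.hom, M.t.nat, M.tv_h, Category.id_comp, Category.comp_id]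

theorem h_shift (M : Lvl T₀ F T tK u v) (X : T.C) (n : ℤ) :
    (M.t.h (X⟦n⟧)).hom = (M.t.h X).hom⟦n⟧' := by
  rw [← cancel_epi (sphTensor n X).hom, M.t.nat, M.t.ten, h_sph, id_tensorHom,
    sphTensor_naturality]

/-- `F` is induced from `B` -/
def Free {B : T.C} {X : T'.C} (η : B ⟶ s.U.F.obj X) : Prop :=
  ∀ Z : T'.C, Function.Bijective fun f : X ⟶ Z => η ≫ s.U.F.map f

variable {s}

theorem Free.ext {B : T.C} {X Z : T'.C} {η : B ⟶ s.U.F.obj X} (h : Free s η) {f g : X ⟶ Z}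
    (e : η ≫ s.U.F.map f = η ≫ s.U.F.map g) : f = g := (h Z).1 e

theorem Free.lift {B : T.C} {X Z : T'.C} {η : B ⟶ s.U.F.obj X} (h : Free s η)
    (y : B ⟶ s.U.F.obj Z) : ∃ f : X ⟶ Z, η ≫ s.U.F.map f = y := (h Z).2 y

theorem free_un (B : T.C) : Free s (s.un B) := fun _ => ⟨fun _ _ e => s.un_ext e, s.ind_lift⟩

theorem Free.iso {B B' : T.C} {X X' : T'.C} {η : B ⟶ s.U.F.obj X} (h : Free s η) (φ : B' ⟶ B)
    [IsIso φ] (k : X ⟶ X') [IsIso k] : Free s (φ ≫ η ≫ s.U.F.map k) := fun Z => by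
  refine ⟨fun f g e => (cancel_epi k).1 (h.ext ((cancel_epi φ).1 ?_)), fun y => ?_⟩
  · simpa only [Category.assoc, Functor.map_comp] using e
  · obtain ⟨f, hf⟩ := h.lift (inv φ ≫ y)
    refine ⟨inv k ≫ f, ?_⟩
    dsimp only
    rw [Category.assoc, Category.assoc, ← Functor.map_comp, IsIso.hom_inv_id_assoc, hf,
      IsIso.hom_inv_id_assoc]

theorem Free.unique {B B' : T.C} {X X' : T'.C} {η : B ⟶ s.U.F.obj X} {η' : B' ⟶ s.U.F.obj X'}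
    (h : Free s η) (h' : Free s η') (φ : B ≅ B') :
    ∃ k : X ≅ X', η ≫ s.U.F.map k.hom = φ.hom ≫ η' := by
  obtain ⟨k, hk⟩ := h.lift (φ.hom ≫ η')
  obtain ⟨k', hk'⟩ := h'.lift (φ.inv ≫ η)
  refine ⟨⟨k, k', h.ext ?_, h'.ext ?_⟩, hk⟩
  · rw [Functor.map_comp, reassoc_of% hk, hk', Iso.hom_inv_id_assoc, s.U.F.map_id,
      Category.comp_id]
  · rw [Functor.map_comp, reassoc_of% hk', hk, Iso.inv_hom_id_assoc, s.U.F.map_id,
      Category.comp_id]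

theorem free_shift (B : T.C) : Free s ((s.adj.unit.app B)⟦(1 : ℤ)⟧' ≫
    (s.U.F.commShiftIso (1 : ℤ)).inv.app (s.ind.obj B)) := by
  have h := (free_un (s := s) (B⟦(1 : ℤ)⟧)).iso (𝟙 _) ((s.ind.commShiftIso (1 : ℤ)).hom.app B)
  rw [Category.id_comp] at h
  rw [s.adj.shift_unit_app, Category.assoc, Category.assoc, Iso.hom_inv_id_app]
  exact (Category.comp_id (s.U.F.map _)).symm ▸ h

theorem Free.tensor {B : T.C} {X : T'.C} {η : B ⟶ s.U.F.obj X} (h : Free s η) (V : T'.C) :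
    Free s (η ▷ s.U.F.obj V ≫ μ s.U.F X V) := by
  obtain ⟨k, hk⟩ := (free_un (s := s) B).unique h (Iso.refl _)
  obtain ⟨p, q, hp, -, h1, h2⟩ := s.exists_proj B V
  have : IsIso p := ⟨q, h1, h2⟩
  have h3 := (free_un (s := s) (B ⊗ s.U.F.obj V)).iso (𝟙 _) (p ≫ k.hom ▷ V)
  rwa [Category.id_comp, Functor.map_comp, reassoc_of% hp, ← μ_natural_left,
    ← comp_whiskerRight_assoc, hk, Iso.refl_hom, Category.id_comp] at h3

theorem U_whisk {X V : T'.C} {g : X ⟶ X} (hg : s.U.F.map g = s.γ X) (hV : s.γ V = 𝟙 _) :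
    s.U.F.map (g ▷ V) = s.γ (X ⊗ V) := by
  rw [← cancel_epi (μ s.U.F X V), s.μ_γ, hV, ← μ_natural_left, hg, tensorHom_id]

variable (s) in
/-- Two free cells attached by `1 - g`. -/
structure Cir where
  /-- the bottom cell -/
  B₀ : T.C
  /-- the top cell -/
  B₁ : T.C
  /-- the induced bottom cell -/
  F₀ : T'.C
  /-- the induced top cell -/
  F₁ : T'.C
  /-- the circle -/
  P : T'.C
  /-- the unit of the bottom cell -/
  η₀ : B₀ ⟶ s.U.F.obj F₀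
  /-- the unit of the top cell -/
  η₁ : B₁ ⟶ s.U.F.obj F₁
  fr₀ : Free s η₀
  fr₁ : Free s η₁
  /-- the generator on the bottom cell -/
  g₀ : F₀ ⟶ F₀
  /-- the generator on the top cell -/
  g₁ : F₁ ⟶ F₁
  hg₀ : s.U.F.map g₀ = s.γ F₀
  hg₁ : s.U.F.map g₁ = s.γ F₁
  /-- the top cell is the suspension of the bottom cell -/
  j : F₁ ≅ F₀⟦(1 : ℤ)⟧
  hj : j.hom ≫ g₀⟦(1 : ℤ)⟧' = g₁ ≫ j.hom
  /-- the inclusion of the bottom cell -/
  e₀ : F₀ ⟶ P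
  /-- the projection to the top cell -/
  e₁ : P ⟶ F₁
  D : H.Dist (𝟙 F₀ - g₀) e₀ (e₁ ≫ j.hom)

namespace Cir

variable (c : Cir s) {Z Z' : T'.C}

/-- the restriction to the bottom cell -/
def bot (w : c.P ⟶ Z) : c.B₀ ⟶ s.U.F.obj Z := c.η₀ ≫ s.U.F.map (c.e₀ ≫ w)

/-- the class of a map out of the top cell -/
def top (ξ : c.F₁ ⟶ Z) : c.B₁ ⟶ s.U.F.obj Z := c.η₁ ≫ s.U.F.map ξ

theorem bot_comp (w : c.P ⟶ Z) (k : Z ⟶ Z') : c.bot (w ≫ k) = c.bot w ≫ s.U.F.map k := by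
  rw [bot, bot, Category.assoc, ← Functor.map_comp, Category.assoc]

theorem bot_sub (w w' : c.P ⟶ Z) : c.bot (w - w') = c.bot w - c.bot w' := by
  rw [bot, bot, bot, Preadditive.comp_sub, Functor.map_sub, Preadditive.comp_sub]

theorem bot_neg (w : c.P ⟶ Z) : c.bot (-w) = -c.bot w := by
  rw [bot, bot, Preadditive.comp_neg, Functor.map_neg, Preadditive.comp_neg]

theorem bot_zsmul (n : ℤ) (w : c.P ⟶ Z) : c.bot (n • w) = n • c.bot w := by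
  rw [bot, bot, Preadditive.comp_zsmul, Functor.map_zsmul, Preadditive.comp_zsmul]

theorem top_zsmul (n : ℤ) (ξ : c.F₁ ⟶ Z) : c.top (n • ξ) = n • c.top ξ := by
  rw [top, top, Functor.map_zsmul, Preadditive.comp_zsmul]

theorem top_add (ξ ξ' : c.F₁ ⟶ Z) : c.top (ξ + ξ') = c.top ξ + c.top ξ' := by
  rw [top, top, top, Functor.map_add, Preadditive.comp_add]

theorem top_sub (ξ ξ' : c.F₁ ⟶ Z) : c.top (ξ - ξ') = c.top ξ - c.top ξ' := by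
  rw [top, top, top, Functor.map_sub, Preadditive.comp_sub]

theorem top_g (ξ : c.F₁ ⟶ Z) : c.top (c.g₁ ≫ ξ) = c.top ξ ≫ s.γ Z := by
  rw [top, top, Functor.map_comp, c.hg₁, ← s.γ_nat, Category.assoc]

theorem top_inj {ξ ξ' : c.F₁ ⟶ Z} (h : c.top ξ = c.top ξ') : ξ = ξ' := c.fr₁.ext h

theorem bot_γ (w : c.P ⟶ Z) : c.bot w ≫ s.γ Z = c.bot w := by
  have h : c.g₀ ≫ c.e₀ = c.e₀ := by
    have h0 := c.D.zero₁₂
    rw [Preadditive.sub_comp, Category.id_comp, sub_eq_zero] at h0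
    exact h0.symm
  rw [bot, Category.assoc, s.γ_nat, ← c.hg₀, ← Functor.map_comp, reassoc_of% h]

theorem of_bot_zero (w : c.P ⟶ Z) (h : c.bot w = 0) : ∃ ξ, w = c.e₁ ≫ ξ := by
  have h0 : c.e₀ ≫ w = 0 := c.fr₀.ext (h.trans (by rw [Functor.map_zero, comp_zero]))
  obtain ⟨b, hb⟩ := c.D.desc₃ w h0
  exact ⟨c.j.hom ≫ b, by rw [← hb, Category.assoc]⟩

theorem e₁_zero_iff (ξ : c.F₁ ⟶ Z) : c.e₁ ≫ ξ = 0 ↔ ∃ z, c.top ξ = z ≫ s.γ Z - z := by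
  have hj : c.j.hom ≫ (𝟙 c.F₀ - c.g₀)⟦(1 : ℤ)⟧' = (𝟙 _ - c.g₁) ≫ c.j.hom := by
    rw [Functor.map_sub, Preadditive.comp_sub, Preadditive.sub_comp, c.hj,
      CategoryTheory.Functor.map_id, Category.comp_id, Category.id_comp]
  constructor
  · intro h
    obtain ⟨b, hb⟩ := c.D.desc₁ (c.j.inv ≫ ξ) (by rw [Category.assoc, Iso.hom_inv_id_assoc, h])
    refine ⟨-c.top (c.j.hom ≫ b), ?_⟩
    rw [Preadditive.neg_comp, ← top_g, sub_neg_eq_add, neg_add_eq_sub, ← top_sub,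
      ← c.j.hom_inv_id_assoc ξ, ← hb, reassoc_of% hj, Preadditive.sub_comp, Category.id_comp]
  · rintro ⟨z, hz⟩
    obtain ⟨b, rfl⟩ := c.fr₁.lift z
    have h : ξ = c.g₁ ≫ b - b := c.top_inj (by rw [top_sub, top_g]; exact hz)
    have h0 := c.D.zero₃₁
    rw [Category.assoc, hj, ← Category.assoc, ← cancel_mono c.j.inv, Category.assoc,
      Iso.hom_inv_id, Category.comp_id, zero_comp] at h0
    rw [h, ← neg_sub, Preadditive.comp_neg, neg_eq_zero, ← zero_comp (f := b), ← h0,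
      Category.assoc, Preadditive.sub_comp, Category.id_comp]

theorem vanish (h₀ : ∀ y : c.B₀ ⟶ s.U.F.obj Z, y = 0) (h₁ : ∀ y : c.B₁ ⟶ s.U.F.obj Z, y = 0)
    (w : c.P ⟶ Z) : w = 0 := by
  obtain ⟨ξ, rfl⟩ := c.of_bot_zero w (h₀ _)
  rw [c.top_inj ((h₁ (c.top ξ)).trans (h₁ (c.top 0)).symm), comp_zero]

/-- the circle depends only on the bottom cell -/
theorem triv (c' : Cir s) (φ : c.B₀ ≅ c'.B₀) :
    ∃ Θ : c.P ≅ c'.P, ∀ (Z : T'.C) (w : c'.P ⟶ Z), c.bot (Θ.hom ≫ w) = φ.hom ≫ c'.bot w := by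
  obtain ⟨k, hk⟩ := c.fr₀.unique c'.fr₀ φ
  have hg : (𝟙 _ - c.g₀) ≫ k.hom = k.hom ≫ (𝟙 _ - c'.g₀) := by
    rw [Preadditive.sub_comp, Preadditive.comp_sub, Category.id_comp, Category.comp_id,
      sub_right_inj]
    refine c.fr₀.ext ?_
    rw [Functor.map_comp, Functor.map_comp, c.hg₀, c'.hg₀, s.γ_nat]
  obtain ⟨Θ, h1, h2⟩ := c.D.map₃ c'.D k.hom k.hom hg
  have : IsIso Θ := isIso₃_of_isIso₁₂ (T := Triangle.mk _ _ _) (T' := Triangle.mk _ _ _)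
    { hom₁ := k.hom, hom₂ := k.hom, hom₃ := Θ, comm₁ := hg, comm₂ := h1, comm₃ := h2 }
    c.D c'.D (inferInstanceAs (IsIso k.hom)) (inferInstanceAs (IsIso k.hom))
  refine ⟨asIso Θ, fun Z w => ?_⟩
  rw [bot, bot, asIso_hom, reassoc_of% h1, Functor.map_comp, reassoc_of% hk]

/-- the tensor product with a sphere on whose restriction the generator acts trivially -/
abbrev tensor (V : T'.C) (hV : s.γ V = 𝟙 _) : Cir s where
  B₀ := c.B₀ ⊗ s.U.F.obj V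
  B₁ := c.B₁ ⊗ s.U.F.obj V
  F₀ := c.F₀ ⊗ V
  F₁ := c.F₁ ⊗ V
  P := c.P ⊗ V
  η₀ := c.η₀ ▷ s.U.F.obj V ≫ μ s.U.F _ V
  η₁ := c.η₁ ▷ s.U.F.obj V ≫ μ s.U.F _ V
  fr₀ := c.fr₀.tensor V
  fr₁ := c.fr₁.tensor V
  g₀ := c.g₀ ▷ V
  g₁ := c.g₁ ▷ V
  hg₀ := U_whisk c.hg₀ hV
  hg₁ := U_whisk c.hg₁ hV
  j := whiskerRightIso c.j V ≪≫ ((tensorRight V).commShiftIso (1 : ℤ)).app c.F₀
  hj := by
    have h := ((tensorRight V).commShiftIso (1 : ℤ)).hom.naturality c.g₀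
    change c.g₀⟦(1 : ℤ)⟧' ▷ V ≫ _ = _ ≫ (c.g₀ ▷ V)⟦(1 : ℤ)⟧' at h
    change (c.j.hom ▷ V ≫ ((tensorRight V).commShiftIso (1 : ℤ)).hom.app c.F₀) ≫ _ =
      _ ≫ c.j.hom ▷ V ≫ ((tensorRight V).commShiftIso (1 : ℤ)).hom.app c.F₀
    rw [Category.assoc, ← h, ← comp_whiskerRight_assoc, c.hj, comp_whiskerRight_assoc]
  e₀ := c.e₀ ▷ V
  e₁ := c.e₁ ▷ V
  D := by
    have h : H.Dist ((𝟙 c.F₀ - c.g₀) ▷ V) (c.e₀ ▷ V) ((c.e₁ ≫ c.j.hom) ▷ V ≫
      ((tensorRight V).commShiftIso (1 : ℤ)).hom.app c.F₀) := dist_whiskerRight V c.D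
    have e : (𝟙 c.F₀ - c.g₀) ▷ V = 𝟙 _ - c.g₀ ▷ V :=
      ((tensorRight V).map_sub).trans (congrArg (· - c.g₀ ▷ V) (id_whiskerRight _ _))
    rwa [e, comp_whiskerRight, Category.assoc] at h

theorem bot_tensor (V : T'.C) (hV : s.γ V = 𝟙 _) (w : c.P ⟶ Z) :
    (c.tensor V hV).bot (w ▷ V) = c.bot w ▷ s.U.F.obj V ≫ μ s.U.F Z V := by
  change (c.η₀ ▷ _ ≫ μ s.U.F _ V) ≫ s.U.F.map (c.e₀ ▷ V ≫ w ▷ V) = _
  rw [bot, ← comp_whiskerRight, Category.assoc, ← μ_natural_left, comp_whiskerRight_assoc]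

theorem bot_left {V V' : T'.C} (hV : s.γ V = 𝟙 _) (hV' : s.γ V' = 𝟙 _) (f : V ⟶ V')
    (w : c.P ⊗ V' ⟶ Z) : (c.tensor V hV).bot (c.P ◁ f ≫ w) =
      c.B₀ ◁ s.U.F.map f ≫ (c.tensor V' hV').bot w := by
  change (c.η₀ ▷ _ ≫ μ s.U.F _ V) ≫ s.U.F.map (c.e₀ ▷ V ≫ c.P ◁ f ≫ w) =
    _ ≫ (c.η₀ ▷ _ ≫ μ s.U.F _ V') ≫ s.U.F.map (c.e₀ ▷ V' ≫ w)
  rw [← whisker_exchange_assoc, Functor.map_comp, Category.assoc, Category.assoc,
    ← μ_natural_right_assoc, whisker_exchange_assoc]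

theorem top_left {V : T'.C} (hV : s.γ V = 𝟙 _) (f : V ⟶ 𝟙_ T'.C) (ξ : c.F₁ ⟶ Z) :
    (c.tensor V hV).top (c.F₁ ◁ f ≫ (ρ_ _).hom ≫ ξ) =
      c.B₁ ◁ (s.U.F.map f ≫ η s.U.F) ≫ (ρ_ _).hom ≫ c.top ξ := by
  change (c.η₁ ▷ _ ≫ μ s.U.F _ V) ≫ s.U.F.map (c.F₁ ◁ f ≫ (ρ_ _).hom ≫ ξ) = _
  rw [Functor.map_comp, Functor.map_comp, Category.assoc, ← μ_natural_right_assoc, top,
    ← rightUnitor_naturality_assoc, whisker_exchange_assoc, Functor.Monoidal.map_rightUnitor,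
    Category.assoc, Category.assoc, Functor.Monoidal.μ_δ_assoc,
    MonoidalCategory.whiskerLeft_comp_assoc]

/-- the dimensions of the cells -/
def Dm (n : ℤ) : Prop := toSkeleton c.B₀ = sk T n ∧ toSkeleton c.B₁ = sk T (n + 1)

end Cir

variable (s) in
/-- the restriction of `V` is the sphere of dimension `n` with trivial action -/
def Sp (V : T'.C) (n : ℤ) : Prop := toSkeleton (s.U.F.obj V) = sk T n ∧ s.γ V = 𝟙 _

theorem sk_U (X Y : T'.C) : toSkeleton (s.U.F.obj (X ⊗ Y)) =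
    toSkeleton (s.U.F.obj X) * toSkeleton (s.U.F.obj Y) := by
  rw [← Skeleton.toSkeleton_tensorObj]
  exact congr_toSkeleton_of_iso (Functor.Monoidal.μIso s.U.F X Y).symm

theorem Cir.Dm.tensor {c : Cir s} {n k l : ℤ} (h : c.Dm n) {V : T'.C} (hV : Sp s V k)
    (e : k + n = l) : (c.tensor V hV.2).Dm l := by
  subst e
  refine ⟨(Skeleton.toSkeleton_tensorObj _ _).trans ?_, (Skeleton.toSkeleton_tensorObj _ _).trans ?_⟩
  · rw [h.1, hV.1, sk_add]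
  · rw [h.2, hV.1, sk_add, add_assoc]

theorem sp_sph (n : ℤ) : Sp s ((𝟙_ T'.C)⟦n⟧) n :=
  ⟨sk_exF s.U n, (congrArg s.U.F.map (h_sph L' n)).trans (s.U.F.map_id _)⟩

theorem Sp.iso {V V' : T'.C} {n : ℤ} (h : Sp s V n) (e : V' ≅ V) : Sp s V' n :=
  ⟨(congr_toSkeleton_of_iso (s.U.F.mapIso e)).trans h.1, by
    rw [← cancel_mono (s.U.F.map e.hom), ← s.γ_nat, h.2, Category.id_comp, Category.comp_id]⟩

theorem sp_unit : Sp s (𝟙_ T'.C) 0 := (sp_sph 0).iso ((shiftFunctorZero T'.C ℤ).app _).symm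

theorem Sp.tensor {V V' : T'.C} {n k l : ℤ} (h : Sp s V n) (h' : Sp s V' k) (e : k + n = l) :
    Sp s (V ⊗ V') l :=
  ⟨by rw [sk_U, h.1, h'.1, sk_add, e], by
    rw [← cancel_epi (μ s.U.F V V'), s.μ_γ, h.2, h'.2, id_tensorHom_id, Category.id_comp,
      Category.comp_id]⟩

theorem Sp.cancel {V V' : T'.C} {n k l : ℤ} (h : Sp s (V ⊗ V') l) (h' : Sp s V' k)
    (e : k + n = l) : Sp s V n := by
  have hu : IsUnit (toSkeleton (s.U.F.obj V')) := h'.1 ▸ sk_unit T k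
  have := isInv_of_unit hu
  refine ⟨hu.mul_right_cancel ?_, whiskerRight_inj (s.U.F.obj V') ?_⟩
  · rw [← sk_U, h.1, h'.1, sk_add, e]
  · rw [← cancel_mono (μ s.U.F V V'), ← tensorHom_id, ← h'.2, ← s.μ_γ, h.2, id_whiskerRight,
      Category.id_comp, Category.comp_id]

theorem Sp.pw {V : T'.C} {n : ℤ} (h : Sp s V n) : ∀ k : ℕ, Sp s (Pw V k) (n * k)
  | 0 => by rw [Nat.cast_zero, mul_zero]; exact sp_unit
  | k + 1 => h.tensor (Sp.pw h k) (by push_cast; ring)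

theorem Sp.isUnit {V : T'.C} {n : ℤ} (h : Sp s V n) : IsUnit (toSkeleton V) := by
  obtain ⟨V', ⟨e⟩⟩ := s.exists_inv V ((𝟙_ T.C)⟦-n⟧) (Skeleton.isoOfEq (by
    rw [Skeleton.toSkeleton_tensorObj, h.1, ← Skeleton.one_eq]
    exact (sk_add T n (-n)).trans (by rw [neg_add_cancel, sk_zero])))
  refine IsUnit.of_mul_eq_one (toSkeleton V') ?_
  rw [← Skeleton.toSkeleton_tensorObj, Skeleton.one_eq]
  exact congr_toSkeleton_of_iso e

theorem sp_Lr (h : s.Cel) : Sp s s.Lr 2 := by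
  obtain ⟨⟨r, -, hr⟩, h2⟩ := h
  refine ⟨(congr_toSkeleton_of_iso (asIso (s.flat2 r)).symm).trans ?_, h2⟩
  rw [sk_shift]
  exact sk_add T 1 1

end Vale.Agent.P236Z.Q
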