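import Vale.Agent.P236Z.Q.Defs

/-!
# P236, block Q: the cells of the pointed projective spaces and the conjugation

`cpg : CPG`. The Thom space `Th 1 J` is obtained from `Th 1 I` (`J` has one more element `j`) by
attaching one cell, with the chart `ch j`; complex conjugation preserves this structure.
-/

open CategoryTheory MonoidalCategory Limits Pretriangulated Topology Matrix OnePoint Filter
open Vale.Agent.P251 Vale.Agent.P251.T Vale.Agent.P251.G Vale.Agent.P251.M
  Vale.Agent.P251.I Vale.Agent.P236Z.Cat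

noncomputable section

namespace Vale.Agent.P236Z.Q

namespace Cpg

theorem cofib_of_relCell {D : Set ℕ} {A B : LC} {f : A ⟶ B} (h : LC.RelCell D f) :
    LC.Cofib f := by
  induction h with
  | iso f => exact LC.cofib_of_isIso f
  | step i a ha hi e => exact hi
  | comp _ _ h1 h2 => exact LC.Cofib.comp h1 h2

section chart

variable {I J : Type} [Fintype I] [Fintype J]

/-- the projection onto the line through `u` -/
def prP (u : J → ℂ) : Matrix J J ℂ := ((nsq u : ℝ) : ℂ)⁻¹ • lineP u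

theorem prP_apply (u : J → ℂ) (a b : J) :
    prP u a b = ((nsq u : ℝ) : ℂ)⁻¹ * (u a * star (u b)) := rfl

theorem prP_smul {c : ℂ} (hc : c ≠ 0) (u : J → ℂ) : prP (c • u) = prP u := by
  have h1 : ((Complex.normSq c : ℝ) : ℂ) ≠ 0 :=
    Complex.ofReal_ne_zero.mpr (Complex.normSq_pos.mpr hc).ne'
  rw [prP, prP, lineP_smul, nsq_smul, smul_smul, Complex.ofReal_mul, mul_inv,
    mul_right_comm, inv_mul_cancel₀ h1, one_mul]

theorem prP_of_one {u : J → ℂ} (h : nsq u = 1) : prP u = lineP u := by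
  rw [prP, h, Complex.ofReal_one, inv_one, one_smul]

theorem isProj_prP {u : J → ℂ} (hu : u ≠ 0) : IsProj 1 (prP u) := by
  have h0 := nsq_pos hu
  have h1 : 0 < Real.sqrt (nsq u) := Real.sqrt_pos.mpr h0
  have h2 : (((Real.sqrt (nsq u))⁻¹ : ℝ) : ℂ) ≠ 0 := Complex.ofReal_ne_zero.mpr (inv_pos.mpr h1).ne'
  have h3 : nsq ((((Real.sqrt (nsq u))⁻¹ : ℝ) : ℂ) • u) = 1 := by
    rw [nsq_real_smul', inv_pow, Real.sq_sqrt h0.le, inv_mul_cancel₀ h0.ne']
  rw [← prP_smul h2, prP_of_one h3]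
  exact isProj_lineP h3

theorem prP_mulVec {u : J → ℂ} (hu : u ≠ 0) (c : ℂ) : prP u *ᵥ (c • u) = c • u := by
  have h1 : ((nsq u : ℝ) : ℂ) ≠ 0 := Complex.ofReal_ne_zero.mpr (nsq_pos hu).ne'
  rw [mulVec_smul, prP, smul_mulVec, lineP_mulVec, ← nsq_eq_dotProduct, inv_smul_smul₀ h1]

theorem nsq_star (u : J → ℂ) : nsq (star u) = nsq u :=
  Finset.sum_congr rfl fun i _ => Complex.normSq_conj (u i)

theorem prP_star (u : J → ℂ) : prP (star u) = (prP u)ᵀ := by
  ext a b
  rw [transpose_apply, prP_apply, prP_apply, nsq_star, Pi.star_apply, Pi.star_apply, star_star,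
    mul_comm (u b)]

variable [DecidableEq I] [DecidableEq J] (j : J)

/-- the direction of the line -/
def dir (z : J → ℂ) : J → ℂ := Function.update z j 1

omit [Fintype J] in
theorem dir_self (z : J → ℂ) : dir j z j = 1 := Function.update_self ..

omit [Fintype J] in
theorem dir_ne (z : J → ℂ) : dir j z ≠ 0 := fun h => by
  have h1 := congrFun h j
  rw [dir_self] at h1
  exact one_ne_zero h1

omit [Fintype J] in
theorem dir_star (z : J → ℂ) : dir j (star z) = star (dir j z) := by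
  funext a
  by_cases h : a = j
  · subst h
    rw [Pi.star_apply, dir_self, dir_self, star_one]
  · rw [Pi.star_apply, dir, dir, Function.update_of_ne h, Function.update_of_ne h, Pi.star_apply]

omit [Fintype J] in
theorem continuous_dir : Continuous (dir j) := continuous_id.update j continuous_const

/-- the chart of the top cell -/
def ch (z : J → ℂ) : Th 1 J :=
  Th.mk (prP (dir j z)) (z j • dir j z) (isProj_prP (dir_ne j z)) (prP_mulVec (dir_ne j z) _)

theorem ch_P (z : J → ℂ) : (ch j z).P = prP (dir j z) := rfl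

theorem ch_v (z : J → ℂ) : (ch j z).v = z j • dir j z := rfl

theorem ch_ne (z : J → ℂ) : (ch j z).P j j ≠ 0 := by
  rw [ch_P, prP_apply, dir_self, star_one, mul_one, mul_one]
  exact inv_ne_zero (Complex.ofReal_ne_zero.mpr (nsq_pos (dir_ne j z)).ne')

theorem continuous_ch : Continuous (ch j) := by
  refine Continuous.subtype_mk (Continuous.prodMk ?_ ?_) _
  · have h : Continuous fun z : J → ℂ => ((nsq (dir j z) : ℝ) : ℂ)⁻¹ :=
      (Complex.continuous_ofReal.comp (continuous_nsq.comp (continuous_dir j))).inv₀ fun z =>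
        Complex.ofReal_ne_zero.mpr (nsq_pos (dir_ne j z)).ne'
    exact h.smul (continuous_lineP.comp (continuous_dir j))
  · exact (continuous_apply j).smul (continuous_dir j)

/-- the inverse of the chart -/
def un (x : Th 1 J) : J → ℂ := Function.update (fun a => x.P a j / x.P j j) j (x.v j)

theorem un_ch (z : J → ℂ) : un j (ch j z) = z := by
  funext a
  by_cases h : a = j
  · subst h
    rw [un, Function.update_self, ch_v, Pi.smul_apply, dir_self, smul_eq_mul, mul_one]
  · rw [un, Function.update_of_ne h, div_eq_iff (ch_ne j z), ch_P, prP_apply, prP_apply, dir_self,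
      dir, Function.update_of_ne h]
    ring

theorem ch_un (x : Th 1 J) (hx : x.P j j ≠ 0) : ch j (un j x) = x := by
  obtain ⟨y, hy, hPy, hP⟩ := x.isProj.exists_lineP
  have hv := x.isProj.eq_smul hy hPy x.P_mulVec
  have h1 : y j * star (y j) ≠ 0 := by rw [hP] at hx; exact hx
  have h2 : y j ≠ 0 := left_ne_zero_of_mul h1
  have h3 : star (y j) ≠ 0 := right_ne_zero_of_mul h1
  have h4 : dir j (un j x) = (y j)⁻¹ • y := by
    funext a
    by_cases h : a = j
    · subst h
      rw [dir_self, Pi.smul_apply, smul_eq_mul, inv_mul_cancel₀ h2]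
    · rw [dir, Function.update_of_ne h, un, Function.update_of_ne h, hP, lineP_apply, lineP_apply,
        Pi.smul_apply, smul_eq_mul, mul_div_mul_right _ _ h3, div_eq_inv_mul]
  refine Th.ext ?_ ?_
  · rw [ch_P, h4, prP_smul (inv_ne_zero h2), prP_of_one hy, hP]
  · have h5 : x.v j = (star y ⬝ᵥ x.v) * y j := congrFun hv j
    rw [ch_v, h4, un, Function.update_self, h5, smul_smul, mul_assoc, mul_inv_cancel₀ h2, mul_one]
    exact hv.symm

/-- the chart as a homeomorphism onto an open set -/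
def chHomeo : (J → ℂ) ≃ₜ {x : Th 1 J // x.P j j ≠ 0} where
  toFun z := ⟨ch j z, ch_ne j z⟩
  invFun x := un j x.1
  left_inv z := un_ch j z
  right_inv x := Subtype.ext (ch_un j x.1 x.2)
  continuous_toFun := (continuous_ch j).subtype_mk _
  continuous_invFun := by
    have h1 : Continuous fun x : {x : Th 1 J // x.P j j ≠ 0} => x.1.P :=
      Th.continuous_P.comp continuous_subtype_val
    have h2 : Continuous fun x : {x : Th 1 J // x.P j j ≠ 0} => x.1.v :=
      Th.continuous_v.comp continuous_subtype_val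
    refine Continuous.update (continuous_pi fun a => ?_) j ((continuous_apply j).comp h2)
    exact (h1.matrix_elem a j).div (h1.matrix_elem j j) fun x => x.2

theorem isOpenEmbedding_ch : IsOpenEmbedding (ch j) := by
  have h : IsOpen {x : Th 1 J | x.P j j ≠ 0} :=
    isOpen_ne_fun (Th.continuous_P.matrix_elem j j) continuous_const
  exact h.isOpenEmbedding_subtypeVal.comp (chHomeo j).isOpenEmbedding

theorem mem_range_inj {f : I → J} (hf : Function.Injective f) (hj : ∀ a, a ∉ Set.range f ↔ a = j)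
    (x : Th 1 J) :
    (x : OnePoint (Th 1 J)) ∈ Set.range (LC.app (Th.inj (n := 1) f hf)) ↔ x.P j j = 0 := by
  constructor
  · rintro ⟨y, hy⟩
    induction y using OnePoint.rec with
    | infty => rw [LC.app_infty] at hy; exact absurd hy.symm (OnePoint.coe_ne_infty _)
    | coe y =>
      rw [Th.app_map_coe] at hy
      rw [← OnePoint.coe_injective hy, Th.mapFun_P]
      exact mul_injMat_conjTranspose_apply_of_notMem _ j ((hj j).mpr rfl) j
  · intro hx
    obtain ⟨y, hy, hPy, hP⟩ := x.isProj.exists_lineP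
    have hv := x.isProj.eq_smul hy hPy x.P_mulVec
    have h1 : y j * star (y j) = 0 := by rw [hP] at hx; exact hx
    have h2 : y j = 0 := by
      rcases mul_eq_zero.mp h1 with h | h
      · exact h
      · exact star_eq_zero.mp h
    have h3 : injMat f *ᵥ (y ∘ f) = y := by
      funext a
      by_cases h : a ∈ Set.range f
      · obtain ⟨b, rfl⟩ := h
        exact injMat_mulVec f hf _ b
      · rw [injMat_mulVec_of_notMem f _ a h, (hj a).mp h, h2]
    have h4 : nsq (y ∘ f) = 1 := by rw [← Th.nsq_isom (injMat_isom hf), h3, hy]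
    refine ⟨((Th.mk (lineP (y ∘ f)) ((star y ⬝ᵥ x.v) • (y ∘ f)) (isProj_lineP h4)
      (lineP_mulVec_smul h4 _) : Th 1 I) : OnePoint (Th 1 I)), ?_⟩
    rw [Th.app_map_coe]
    congr 1
    refine Th.ext ?_ ?_
    · rw [Th.mapFun_P, Th.mk_P, hP, lineP, lineP, mul_vecMulVec, vecMulVec_mul, ← star_mulVec, h3]
    · rw [Th.mapFun_v, Th.mk_v, mulVec_smul, h3]
      exact hv.symm

/-- the collapse onto the top cell -/
def top {V : LC} (e : V ≃ₜ (J → ℂ)) : LC.of (Th 1 J) ⟶ V :=
  LC.ofOpen (X := LC.of (Th 1 J)) (Y := V) (ch j ∘ e) ((isOpenEmbedding_ch j).comp e.isOpenEmbedding)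

theorem mem_range_ch {V : LC} (e : V ≃ₜ (J → ℂ)) (x : Th 1 J) :
    x ∈ Set.range (ch j ∘ e) ↔ x.P j j ≠ 0 := by
  constructor
  · rintro ⟨v, rfl⟩
    exact ch_ne j _
  · intro hx
    exact ⟨e.symm (un j x), by rw [Function.comp_apply, e.apply_symm_apply, ch_un j x hx]⟩

theorem cofSeq_top {f : I → J} (hf : Function.Injective f) (hj : ∀ a, a ∉ Set.range f ↔ a = j)
    {V : LC} (e : V ≃ₜ (J → ℂ)) : P251.Q.CofSeq (Th.inj (n := 1) f hf) (top j e) :=
  ⟨cofib_of_relCell (Cell.relCell_inj 1 f hf),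
    LC.isPushout_collapse (B := LC.of (Th 1 J)) (ch j ∘ e) _
      (fun x => (mem_range_ch j e x).trans (mem_range_inj j hf hj x).not.symm)
      LC.isZero_empty 0 0⟩

end chart

section conj

variable {I J : Type} [Fintype I] [Fintype J]

theorem isProj_transpose {P : Matrix J J ℂ} {n : ℕ} (h : IsProj n P) : IsProj n Pᵀ where
  idem := by rw [← transpose_mul, h.idem]
  herm := by rw [conjTranspose_transpose_eq_transpose_conjTranspose, h.herm]
  trace := by rw [trace_transpose, h.trace]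

omit [Fintype J] in
theorem transpose_star {u : Matrix J I ℂ} {w : Matrix I J ℂ} (h : uᴴ = w) (v : I → ℂ) :
    wᵀ *ᵥ star v = star (u *ᵥ v) := by
  rw [mulVec_transpose, star_mulVec, h]

/-- complex conjugation of points -/
def cjFun (x : Th 1 J) : Th 1 J :=
  Th.mk x.Pᵀ (star x.v) (isProj_transpose x.isProj)
    (by rw [transpose_star x.isProj.herm, x.P_mulVec])

/-- complex conjugation -/
def cj (J : Type) [Fintype J] : LC.of (Th 1 J) ⟶ LC.of (Th 1 J) :=
  LC.ofProper (X := LC.of (Th 1 J)) (Y := LC.of (Th 1 J)) cjFun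
    ((Th.continuous_P.matrix_transpose.prodMk Th.continuous_v.star).subtype_mk _)
    (by
      rw [Th.tendsto_cocompact_iff]
      exact Th.tendsto_nsq.congr fun x => (nsq_star x.v).symm)

theorem app_cj (x : Th 1 J) :
    LC.app (cj J) (x : OnePoint (Th 1 J)) = (cjFun x : OnePoint (Th 1 J)) := rfl

variable [DecidableEq I] [DecidableEq J]

omit [Fintype I] [Fintype J] [DecidableEq I] in
theorem injMat_ct (f : I → J) : (injMat f)ᴴ = (injMat f)ᵀ := by
  ext a b
  simp only [conjTranspose_apply, transpose_apply, injMat_apply, apply_ite star, star_one,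
    star_zero]

theorem inj_cj {f : I → J} (hf : Function.Injective f) :
    Th.inj (n := 1) f hf ≫ cj J = cj I ≫ Th.inj f hf := by
  apply LC.hom_ext
  intro x
  rw [LC.app_comp, LC.app_comp, Th.app_map_coe, app_cj, app_cj, Th.app_map_coe]
  congr 1
  refine Th.ext ?_ ?_
  · change (injMat f * Th.P x * (injMat f)ᴴ)ᵀ = injMat f * (Th.P x)ᵀ * (injMat f)ᴴ
    rw [transpose_mul, transpose_mul, injMat_ct, transpose_transpose, Matrix.mul_assoc]
  · change star (injMat f *ᵥ Th.v x) = injMat f *ᵥ star (Th.v x)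
    rw [← transpose_star (injMat_ct f), transpose_transpose]

theorem cjFun_ch (j : J) (z : J → ℂ) : cjFun (ch j z) = ch j (star z) := by
  refine Th.ext ?_ ?_
  · change (prP (dir j z))ᵀ = prP (dir j (star z))
    rw [dir_star, prP_star]
  · change star (z j • dir j z) = star (z j) • dir j (star z)
    rw [dir_star, star_smul]

theorem top_cj (j : J) {V : LC} (e : V ≃ₜ (J → ℂ)) (c : V ⟶ V) (c0 : V → V)
    (hc : ∀ v : V, LC.app c (v : OnePoint V) = (c0 v : OnePoint V))
    (he : ∀ v, e (c0 v) = star (e v)) : top j e ≫ c = cj J ≫ top j e := by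
  apply LC.hom_ext
  intro x
  rw [LC.app_comp, LC.app_comp, app_cj]
  by_cases hx : x ∈ Set.range (ch j ∘ e)
  · obtain ⟨v, rfl⟩ := hx
    have h1 : cjFun ((ch j ∘ e) v) = (ch j ∘ e) (c0 v) := by
      rw [Function.comp_apply, Function.comp_apply, cjFun_ch, he]
    rw [h1]
    refine (congrArg _ (LC.app_ofOpen_coe (X := LC.of (Th 1 J)) (ch j ∘ e) _ v)).trans ?_
    exact (hc v).trans (LC.app_ofOpen_coe (X := LC.of (Th 1 J)) (ch j ∘ e) _ (c0 v)).symm
  · have h1 : cjFun x ∉ Set.range (ch j ∘ e) := fun h =>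
      hx ((mem_range_ch j e x).mpr ((mem_range_ch j e (cjFun x)).mp h))
    refine (congrArg _ (LC.app_ofOpen_of_notMem (X := LC.of (Th 1 J)) (ch j ∘ e) _ hx)).trans ?_
    exact (LC.app_infty c).trans
      (LC.app_ofOpen_of_notMem (X := LC.of (Th 1 J)) (ch j ∘ e) _ h1).symm

end conj

/-- the conjugation of the complex line -/
def cC : CCF ⟶ CCF := FCat.hom (LC.lin Complex.conjCLE)

theorem lineTh_cj : lineTh ≫ cj Unit = cC.hom ≫ lineTh := by
  apply LC.hom_ext
  intro x
  have h1 : ∀ y : ℂ, LC.app lineTh (y : OnePoint ℂ) =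
      ((Th.mk 1 (fun _ => y) IsProj.one (one_mulVec _) : Th 1 Unit) : OnePoint (Th 1 Unit)) :=
    fun y => rfl
  have h2 : LC.app cC.hom (x : OnePoint ℂ) = ((star (x : ℂ) : ℂ) : OnePoint ℂ) := rfl
  rw [LC.app_comp, LC.app_comp, h1, app_cj, h2, h1]
  exact congrArg _ (Th.ext transpose_one rfl)

section sign

variable {T : Type 1} [Category.{0} T] [Preadditive T] [HasZeroObject T]
    [HasShift T ℤ] [∀ n : ℤ, (shiftFunctor T n).Additive] [Pretriangulated T]
    [MonoidalCategory T] [SymmetricCategory T] [TensorTriangulated T] (F : SpaceFunctor T)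

/-- the reflection of the plane -/
def rf : (ℝ × ℝ) ≃L[ℝ] (ℝ × ℝ) :=
  (ContinuousLinearEquiv.refl ℝ ℝ).prodCongr (ContinuousLinearEquiv.neg ℝ)

theorem det_rf : (rf : (ℝ × ℝ) →L[ℝ] (ℝ × ℝ)).det = -1 := by
  rw [ContinuousLinearMap.det, ← LinearMap.det_toMatrix (Module.Basis.finTwoProd ℝ),
    Matrix.det_fin_two]
  simp [LinearMap.toMatrix_apply, rf]

theorem det_sw :
    (ContinuousLinearEquiv.prodComm ℝ ℝ ℝ : (ℝ × ℝ) →L[ℝ] (ℝ × ℝ)).det = -1 := by
  rw [ContinuousLinearMap.det, ← LinearMap.det_toMatrix (Module.Basis.finTwoProd ℝ),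
    Matrix.det_fin_two]
  simp [LinearMap.toMatrix_apply]

theorem S_cC : F.S.map cC = -𝟙 _ := by
  have h1 : cC ≫ ccfIso.hom =
      ccfIso.hom ≫ (FCat.hom (LC.lin rf) : RRF ⊗ RRF ⟶ RRF ⊗ RRF) := by
    apply ObjectProperty.hom_ext
    apply LC.hom_ext
    intro x
    rfl
  have h2 : F.S.map (FCat.hom (LC.lin rf) : RRF ⊗ RRF ⟶ RRF ⊗ RRF) = -𝟙 _ := by
    rw [← S_swap]
    refine F.map_eq _ _ ?_
    have h3 : (β_ RRF RRF).hom.hom = LC.lin (ContinuousLinearEquiv.prodComm ℝ ℝ ℝ) := by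
      apply LC.hom_ext
      rintro ⟨x, y⟩
      rfl
    rw [h3]
    refine LC.homotopic_lin_of_det _ _ ?_
    rw [det_rf, det_sw]
    norm_num
  rw [← cancel_mono (F.S.map ccfIso.hom), ← Functor.map_comp, h1, Functor.map_comp, h2,
    Preadditive.comp_neg, Preadditive.neg_comp, Category.comp_id, Category.id_comp]

theorem S_tensor {X Y : FCat} {f : X ⟶ X} {g : Y ⟶ Y} {a b : ℤ} (hf : F.S.map f = a • 𝟙 _)
    (hg : F.S.map g = b • 𝟙 _) : F.S.map (f ⊗ₘ g) = (a * b) • 𝟙 _ := by
  rw [MonoidalCategory.tensorHom_def, Functor.map_comp, S_whiskerRight, S_whiskerLeft, hf, hg,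
    ← act_zsmul_id a (F.S.obj X), ← act_zsmul_id b (F.S.obj Y), act_whiskerRight,
    whiskerLeft_act, act_zsmul_id, act_zsmul_id]
  simp only [Preadditive.zsmul_comp, Preadditive.comp_zsmul, Category.id_comp, Iso.inv_hom_id,
    smul_smul]
  rw [mul_comm]

theorem S_cC2 : F.S.map (cC ⊗ₘ cC) = 𝟙 _ := by
  have h : F.S.map cC = (-1 : ℤ) • 𝟙 _ := by rw [S_cC, neg_one_zsmul]
  rw [S_tensor F h h]
  norm_num

theorem S_cC3 : F.S.map (cC ⊗ₘ (cC ⊗ₘ cC)) = -𝟙 _ := by
  have h : F.S.map cC = (-1 : ℤ) • 𝟙 _ := by rw [S_cC, neg_one_zsmul]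
  have h2 : F.S.map (cC ⊗ₘ cC) = (1 : ℤ) • 𝟙 _ := by rw [S_cC2, one_zsmul]
  rw [S_tensor F h h2]
  norm_num

end sign

/-- coordinates in dimension two -/
def e2 : (ℂ × ℂ) ≃ₜ (Fin 2 → ℂ) where
  toFun p := ![p.1, p.2]
  invFun z := (z 0, z 1)
  left_inv _ := rfl
  right_inv z := by
    funext a
    fin_cases a <;> rfl
  continuous_toFun := by fun_prop
  continuous_invFun := by fun_prop

/-- coordinates in dimension three -/
def e3 : (ℂ × (ℂ × ℂ)) ≃ₜ (Fin 3 → ℂ) where
  toFun p := ![p.1, p.2.1, p.2.2]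
  invFun z := (z 0, z 1, z 2)
  left_inv _ := rfl
  right_inv z := by
    funext a
    fin_cases a <;> rfl
  continuous_toFun := by fun_prop
  continuous_invFun := by fun_prop

/-- the top cell of the plane -/
def q2 : B2 ⟶ CCF ⊗ CCF := FCat.hom (top (V := LC.of (ℂ × ℂ)) (1 : Fin 2) e2)

/-- the top cell of the space -/
def q3 : B3 ⟶ CCF ⊗ (CCF ⊗ CCF) := FCat.hom (top (V := LC.of (ℂ × (ℂ × ℂ))) (2 : Fin 3) e3)

theorem isCof2 : IsCof (𝟭 _) i1 q2 := by
  have h := cofSeq_top (1 : Fin 2) (f := fun _ : Unit => (0 : Fin 2))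
    (fun _ _ _ => Subsingleton.elim _ _) (by decide) (V := LC.of (ℂ × ℂ)) e2
  have h' : P251.Q.CofSeq i1.hom q2.hom :=
    h.of_iso (asIso lineTh).symm (Iso.refl _) (Iso.refl _)
      ((Category.comp_id _).trans (IsIso.inv_hom_id_assoc lineTh _).symm)
      ((Category.comp_id _).trans (Category.id_comp _).symm)
  exact ⟨h'.cofib, h'.isPushout⟩

theorem isCof3 : IsCof (𝟭 _) i2 q3 := by
  have h := cofSeq_top (2 : Fin 3) (f := (Fin.castSucc : Fin 2 → Fin 3))
    (Fin.castSucc_injective 2) (by decide) (V := LC.of (ℂ × (ℂ × ℂ))) e3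
  exact ⟨h.cofib, h.isPushout⟩

/-- the conjugation of the plane -/
def c2 : B2 ⟶ B2 := FCat.hom (cj (Fin 2))

/-- the conjugation of the space -/
def c3 : B3 ⟶ B3 := FCat.hom (cj (Fin 3))

theorem i1_c : i1 ≫ c2 = cC ≫ i1 := by
  apply ObjectProperty.hom_ext
  have hf : Function.Injective fun _ : Unit => (0 : Fin 2) := fun _ _ _ => Subsingleton.elim _ _
  change (lineTh ≫ Th.inj _ hf) ≫ cj (Fin 2) = cC.hom ≫ lineTh ≫ Th.inj _ hf
  rw [Category.assoc, inj_cj, ← Category.assoc, lineTh_cj, Category.assoc]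

theorem i2_c : i2 ≫ c3 = c2 ≫ i2 := ObjectProperty.hom_ext _ (inj_cj (Fin.castSucc_injective 2))

theorem q2_c : q2 ≫ (cC ⊗ₘ cC) = c2 ≫ q2 := by
  apply ObjectProperty.hom_ext
  refine top_cj (V := LC.of (ℂ × ℂ)) (1 : Fin 2) e2 _ (fun p => (star p.1, star p.2))
    (fun _ => rfl) fun v => ?_
  funext a
  fin_cases a <;> rfl

theorem q3_c : q3 ≫ (cC ⊗ₘ (cC ⊗ₘ cC)) = c3 ≫ q3 := by
  apply ObjectProperty.hom_ext
  refine top_cj (V := LC.of (ℂ × (ℂ × ℂ))) (2 : Fin 3) e3 _
    (fun p => (star p.1, star p.2.1, star p.2.2)) (fun _ => rfl) fun v => ?_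
  funext a
  fin_cases a <;> rfl

end Cpg

open Cpg in
/-- (CPG) -/
theorem cpg : CPG := by
  intro W
  have n2 := W.c.cδ_nat isCof2 isCof2 cC c2 (cC ⊗ₘ cC) i1_c q2_c
  have n3 := W.c.cδ_nat isCof3 isCof3 c2 c3 (cC ⊗ₘ (cC ⊗ₘ cC)) i2_c q3_c
  rw [S_cC, S_cC2, Functor.map_neg, CategoryTheory.Functor.map_id, Preadditive.comp_neg,
    Category.comp_id, Category.id_comp] at n2
  rw [S_cC3, Preadditive.neg_comp, Category.id_comp] at n3
  refine ⟨⟨q2, q3, W.c.cδ isCof2, W.c.cδ isCof3, W.c.dist isCof2, W.c.dist isCof3, ?_, ?_⟩⟩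
  · rw [two_zsmul]
    exact add_eq_zero_iff_neg_eq.mpr n2
  · have h1 : W.F.S.map c2 ≫ W.F.S.map q2 = W.F.S.map q2 := by
      rw [← Functor.map_comp, ← q2_c, Functor.map_comp, S_cC2, Category.comp_id]
    have h2 := congrArg (· ≫ (W.F.S.map q2)⟦(1 : ℤ)⟧') n3
    simp only [Category.assoc, ← Functor.map_comp, h1, Preadditive.neg_comp] at h2
    rw [two_zsmul]
    exact add_eq_zero_iff_eq_neg.mpr h2

end Vale.Agent.P236Z.Q
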