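import Vale.Agent.P236Z.Top.Unit
import Vale.Agent.P251.M.ThFCInst

/-!
# P236, block Q: the statements of the step from the subgroup of order three to the whole group

* `CPG` : the cells of the pointed projective space of dimension three;
* `XCP` : the coordinate of the orientation and its transforms under ring maps;
* `JAM` : periodicity of the third power of the rotation sphere over the cone of `a ^ 3`;
* `NL` : the Euler class `a ^ 3` of the faithful representation is divisible by the norm of `a`;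
* `PSI`, `PSG` : the norms of the coordinate, restricted to the diagonal.
-/

open CategoryTheory MonoidalCategory Limits Pretriangulated
open Functor.LaxMonoidal Functor.OplaxMonoidal
open Vale.Agent.P251 Vale.Agent.P251.T Vale.Agent.P251.G Vale.Agent.P251.M Vale.Agent.P251.S
  Vale.Agent.P251.F Vale.Agent.P251.I Vale.Agent.P251.X Vale.Agent.P236Z.Cat Vale.Agent.P236Z.Mod
  Vale.Agent.P236Z.Top

noncomputable section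

namespace Vale.Agent.P236Z.Q

/-- the pointed projective plane -/
abbrev B2 : FCat := ThF 1 (Fin 2)

/-- the pointed projective space of dimension three -/
abbrev B3 : FCat := ThF 1 (Fin 3)

/-- the projective line in the projective plane -/
def i1 : CCF ⟶ B2 :=
  FCat.hom (lineTh ≫ Th.inj (fun _ : Unit => (0 : Fin 2)) fun _ _ _ => Subsingleton.elim _ _)

/-- the projective plane in the projective space -/
def i2 : B2 ⟶ B3 := FCat.hom (Th.inj Fin.castSucc (Fin.castSucc_injective 2))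

/-- The cells of the projective space; the attaching maps of neighbouring cells have order two. -/
structure CPD (W : Tower) where
  /-- the top cell of the plane -/
  q2 : B2 ⟶ CCF ⊗ CCF
  /-- the top cell of the space -/
  q3 : B3 ⟶ CCF ⊗ (CCF ⊗ CCF)
  /-- the attaching map of the four dimensional cell -/
  d2 : W.F.S.obj (CCF ⊗ CCF) ⟶ (W.F.S.obj CCF)⟦(1 : ℤ)⟧
  /-- the attaching map of the six dimensional cell -/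
  d3 : W.F.S.obj (CCF ⊗ (CCF ⊗ CCF)) ⟶ (W.F.S.obj B2)⟦(1 : ℤ)⟧
  D2 : H.Dist (W.F.S.map i1) (W.F.S.map q2) d2
  D3 : H.Dist (W.F.S.map i2) (W.F.S.map q3) d3
  two2 : (2 : ℤ) • d2 = 0
  two3 : (2 : ℤ) • (d3 ≫ (W.F.S.map q2)⟦(1 : ℤ)⟧') = 0

/-- (CPG) -/
def CPG : Prop := ∀ W : Tower, Nonempty (CPD W)

variable {W : Tower}

/-- `x` restricts to the suspension class on the projective line -/
def Ori (m : Mdl W) (x : W.F.S.obj B3 ⟶ W.F.S.obj CCF ⊗ m.P.E) : Prop :=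
  W.F.S.map (i1 ≫ i2) ≫ x = (ρ_ _).inv ≫ _ ◁ MonObj.one

/-- `g x = x + τ x ^ 3` -/
def Exp (m : Mdl W) (c : CPD W) (x : W.F.S.obj B3 ⟶ W.F.S.obj CCF ⊗ m.P.E) (g : m.P.E ⟶ m.P.E)
    (τ : W.F.S.obj (CCF ⊗ CCF) ⟶ m.P.E) : Prop :=
  x ≫ _ ◁ g = x + W.F.S.map c.q3 ≫ δ W.F.S CCF (CCF ⊗ CCF) ≫ _ ◁ τ

/-- (XCP) -/
def XCP : Prop := ∀ (W : Tower) (m : Mdl W) (c : CPD W),
  ∃ (x : W.F.S.obj B3 ⟶ W.F.S.obj CCF ⊗ m.P.E)
    (k : (stdEven W.T₀.C).S 2 ≅ W.F.S.obj (CCF ⊗ CCF)), Ori m x ∧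
    ∀ (g : m.P.E ⟶ m.P.E) [IsMonHom g], ∃ τ, Exp m c x g τ ∧
      HRing.of _ m.P.E 2 (k.hom ≫ τ) = (sIso (m.M.data m.b) m.P.uE (m.P.uE ≫ g)).c 2

/-- the powers of a class -/
def pa {C : Type 1} [Category.{0} C] [MonoidalCategory C] {L : C} (a : 𝟙_ C ⟶ L) :
    ∀ k : ℕ, 𝟙_ C ⟶ Pw L k
  | 0 => 𝟙 _
  | k + 1 => pa a k ≫ (λ_ _).inv ≫ a ▷ Pw L k

/-- (JAM) -/
def JAM : Prop := ∀ W : Tower, ∃ (C : W.T₂.C) (d : Pw W.s₂.Lr 3 ⟶ C)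
  (w : C ⟶ (𝟙_ W.T₂.C)⟦(1 : ℤ)⟧), H.Dist (pa W.s₂.ar 3) d w ∧
    Nonempty (C ⊗ Pw W.s₂.Lr 3 ≅ C ⊗ Pw (W.L₂.tv.F.obj (W.F.S.obj CCF)) 3)

/-- (NL) -/
def NL : Prop := ∀ W : Tower, ∃ Φ : W.s₂.N.obj W.s₁.Lr ⟶ Pw W.L 3,
  ε W.s₂.N ≫ W.s₂.N.map W.s₁.ar ≫ Φ = pa W.a 3

/-- (PSI) -/
def PSI : Prop := ∀ (W : Tower), W.Geo → ∀ (m : Mdl W) (c : CPD W) x τ, Ori m x →
  Exp m c x m.P.ρ τ →
  ∃ ψ : W.L₁.tv.F.obj (W.F.S.obj B3) ⟶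
      W.L₁.tv.F.obj (W.F.S.obj CCF) ⊗ W.s₂.U.F.obj (m.Z (0 + 22)),
    W.L₁.tv.F.map (W.F.S.map (i1 ≫ i2)) ≫ ψ =
      (ρ_ _).inv ≫ _ ◁ (m.one₁ ≫ W.s₂.U.F.map (m.st 22)) ∧
    ψ ≫ _ ◁ W.s₂.γ _ = ψ + W.L₁.tv.F.map (W.F.S.map c.q3 ≫ δ W.F.S CCF (CCF ⊗ CCF)) ≫
      δ W.L₁.tv.F _ _ ≫ _ ◁ (W.s₁.dg (CCF ⊗ CCF) ≫ W.s₁.N.map τ ≫ m.nm₁ ≫
        W.s₂.U.F.map (m.st 22))

/-- (PSG) -/
def PSG : Prop := NL → ∀ (W : Tower), W.Geo → ∀ (m : Mdl W) x, Ori m x →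
  ∃ Ψ : W.L₂.tv.F.obj (W.F.S.obj B3) ⟶
      W.L₂.tv.F.obj (W.F.S.obj CCF) ⊗ (Pw W.s₂.Lr 2 ⊗ m.Z (0 + 6)),
    W.L₂.tv.F.map (W.F.S.map (i1 ≫ i2)) ≫ Ψ =
      (ρ_ _).inv ≫ _ ◁ ((λ_ _).inv ≫ (pa W.s₂.ar 2 ⊗ₘ (m.Y.one ≫ m.st 6)))

end Vale.Agent.P236Z.Q
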