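import Vale.Agent.P236Z.Q.Defs

/-!
# P236, block Q: the two cell complex of the class of stem three

`AlD m` : the class `α` with its cone `C`; `a' ^ 2 a ^ 6 α = 0`; the extension `ψ` of the unit over
the cone at the level of the subgroup and its transform under the generator.
-/

open CategoryTheory MonoidalCategory Limits Pretriangulated
open Functor.LaxMonoidal Functor.OplaxMonoidal
open Vale.Agent.P251 Vale.Agent.P251.T Vale.Agent.P251.G Vale.Agent.P251.M Vale.Agent.P251.S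
  Vale.Agent.P251.F Vale.Agent.P251.I Vale.Agent.P251.X Vale.Agent.P236Z.Cat Vale.Agent.P236Z.Mod
  Vale.Agent.P236Z.Top

noncomputable section

namespace Vale.Agent.P236Z.Q

variable {W : Tower}

/-- The class of stem three and its two null homotopies. -/
structure AlD (m : Mdl W) where
  /-- the sphere of dimension three -/
  A : W.T₂.C
  /-- the cone -/
  C : W.T₂.C
  /-- the class -/
  α : A ⟶ 𝟙_ W.T₂.C
  /-- the bottom cell -/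
  i : 𝟙_ W.T₂.C ⟶ C
  /-- the top cell -/
  q : C ⟶ A⟦(1 : ℤ)⟧
  D : H.Dist α i q
  hC : (W.L₂.t.h C).hom = 𝟙 _
  sph : Nonempty (A ≅ (𝟙_ W.T₂.C)⟦(3 : ℤ)⟧)
  two : α ≫ (λ_ _).inv ≫ (pa W.s₂.ar 2 ⊗ₘ (m.Y.one ≫ m.st 6)) = 0
  /-- the extension of the unit -/
  ψ : W.s₂.U.F.obj C ⟶ W.s₂.U.F.obj (m.Z (0 + 22))
  res : W.s₂.U.F.map i ≫ ψ = W.s₂.U.F.map (m.Y.one ≫ m.st 22)
  /-- a framing -/
  κ : (𝟙_ W.T₁.C)⟦(4 : ℤ)⟧ ≅ W.L₁.tv.F.obj (W.F.S.obj (CCF ⊗ CCF))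
  /-- the coefficient of the third power -/
  τ : W.F.S.obj (CCF ⊗ CCF) ⟶ m.P.E
  unit : m.IsU₀ τ
  /-- a framing of the top cell -/
  k : W.s₂.U.F.obj (A⟦(1 : ℤ)⟧) ≅ (𝟙_ W.T₁.C)⟦(4 : ℤ)⟧
  var : ψ ≫ W.s₂.γ _ = ψ + (2 : ℤ) • (W.s₂.U.F.map q ≫ k.hom ≫ m.cls κ τ ≫
    W.s₂.U.F.map (m.st 22))

/-- (ALD) -/
def ALD : Prop := CPG → XCP → NL → PSI → PSG → ∀ W : Tower, W.Geo → ∀ m : Mdl W, Nonempty (AlD m)

end Vale.Agent.P236Z.Q
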