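import Vale.Agent.P236Z.Q.Defs
import Vale.Agent.P236Z.Tr.Defs
import Vale.Agent.P251.G.CofibEx
import Vale.Agent.P251.I.CofTriangle

/-!
# P236, block Q: periodicity of the third power of the rotation sphere

Over the complement `Z` of the origin of `V = ℂ³` (a primitive third root of unity `w` acts by
multiplication) the product `Z × V` is equivariantly homeomorphic to `Z × V₀`, where the action on
`V₀ = ℂ³` is trivial: `(z, y) ↦ (z, (z · y) z / r² + (z̄ × y) / r)` with `r = |z|`.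
-/

open CategoryTheory MonoidalCategory Limits Pretriangulated
open Functor.LaxMonoidal Functor.OplaxMonoidal
open Vale.Agent.P251 Vale.Agent.P251.T Vale.Agent.P251.G Vale.Agent.P251.M Vale.Agent.P251.I
  Vale.Agent.P236Z.Cat
open scoped ComplexConjugate

noncomputable section

namespace Vale.Agent.P236Z.Q

namespace Jam

/-- three complex coordinates -/
abbrev E3 : Type := ℂ × (ℂ × (ℂ × Unit))

theorem ext3 {x y : E3} (h1 : x.1 = y.1) (h2 : x.2.1 = y.2.1) (h3 : x.2.2.1 = y.2.2.1) : x = y :=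
  Prod.ext h1 (Prod.ext h2 (Prod.ext h3 rfl))

/-- the bilinear product -/
def dot (a y : E3) : ℂ := a.1 * y.1 + a.2.1 * y.2.1 + a.2.2.1 * y.2.2.1

/-- `s² (a · y) a + s (b × y)` -/
def Bm (a b : E3) (s : ℂ) (y : E3) : E3 :=
  (s ^ 2 * dot a y * a.1 + s * (b.2.1 * y.2.2.1 - b.2.2.1 * y.2.1),
    s ^ 2 * dot a y * a.2.1 + s * (b.2.2.1 * y.1 - b.1 * y.2.2.1),
    s ^ 2 * dot a y * a.2.2.1 + s * (b.1 * y.2.1 - b.2.1 * y.1), ())

/-- multiplication by a scalar -/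
def sc (w : ℂ) (y : E3) : E3 := (w * y.1, w * y.2.1, w * y.2.2.1, ())

/-- conjugation -/
def cj (z : E3) : E3 := (conj z.1, conj z.2.1, conj z.2.2.1, ())

theorem dot_comm (a b : E3) : dot a b = dot b a := by
  unfold dot
  ring

theorem Bm_Bm (a b : E3) (s : ℂ) (h : s ^ 2 * dot a b = 1) (y : E3) :
    Bm b a (-s) (Bm a b s y) = y := by
  unfold dot at h
  apply ext3 <;> simp only [Bm, dot]
  · linear_combination
      (s ^ 2 * (a.1 * y.1 + a.2.1 * y.2.1 + a.2.2.1 * y.2.2.1) * b.1 + y.1) * h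
  · linear_combination
      (s ^ 2 * (a.1 * y.1 + a.2.1 * y.2.1 + a.2.2.1 * y.2.2.1) * b.2.1 + y.2.1) * h
  · linear_combination
      (s ^ 2 * (a.1 * y.1 + a.2.1 * y.2.1 + a.2.2.1 * y.2.2.1) * b.2.2.1 + y.2.2.1) * h

theorem Bm_Bm' (a b : E3) (s : ℂ) (h : s ^ 2 * dot a b = 1) (y : E3) :
    Bm a b s (Bm b a (-s) y) = y := by
  have h1 := Bm_Bm b a (-s) (by rw [neg_sq, dot_comm, h]) y
  rwa [neg_neg] at h1

theorem Bm_sc (a b : E3) (s w c : ℂ) (hw : w * w * w = 1) (hc : c * w = 1) (y : E3) :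
    Bm (sc w a) (sc c b) s (sc w y) = Bm a b s y := by
  apply ext3 <;> simp only [Bm, dot, sc]
  · linear_combination
      (s ^ 2 * (a.1 * y.1 + a.2.1 * y.2.1 + a.2.2.1 * y.2.2.1) * a.1) * hw +
        s * (b.2.1 * y.2.2.1 - b.2.2.1 * y.2.1) * hc
  · linear_combination
      (s ^ 2 * (a.1 * y.1 + a.2.1 * y.2.1 + a.2.2.1 * y.2.2.1) * a.2.1) * hw +
        s * (b.2.2.1 * y.1 - b.1 * y.2.2.1) * hc
  · linear_combination
      (s ^ 2 * (a.1 * y.1 + a.2.1 * y.2.1 + a.2.2.1 * y.2.2.1) * a.2.2.1) * hw +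
        s * (b.1 * y.2.1 - b.2.1 * y.1) * hc

theorem cj_sc (w : ℂ) (z : E3) : cj (sc w z) = sc (conj w) (cj z) :=
  ext3 (map_mul _ _ _) (map_mul _ _ _) (map_mul _ _ _)

/-- the square of the length -/
def r2 (z : E3) : ℝ := Complex.normSq z.1 + Complex.normSq z.2.1 + Complex.normSq z.2.2.1

/-- the inverse of the length -/
def ss (z : E3) : ℂ := ((Real.sqrt (r2 z) : ℝ) : ℂ)⁻¹

theorem r2_pos {z : E3} (hz : z ≠ (0, 0, 0, ())) : 0 < r2 z := by
  have h1 := Complex.normSq_nonneg z.1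
  have h2 := Complex.normSq_nonneg z.2.1
  have h3 := Complex.normSq_nonneg z.2.2.1
  by_contra h
  unfold r2 at h
  exact hz (ext3 (Complex.normSq_eq_zero.1 (by linarith)) (Complex.normSq_eq_zero.1 (by linarith))
    (Complex.normSq_eq_zero.1 (by linarith)))

theorem sqrt_ne {z : E3} (hz : z ≠ (0, 0, 0, ())) : ((Real.sqrt (r2 z) : ℝ) : ℂ) ≠ 0 :=
  Complex.ofReal_ne_zero.2 (Real.sqrt_pos.2 (r2_pos hz)).ne'

theorem ss_dot {z : E3} (hz : z ≠ (0, 0, 0, ())) : ss z ^ 2 * dot z (cj z) = 1 := by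
  have h : dot z (cj z) = ((Real.sqrt (r2 z) : ℝ) : ℂ) ^ 2 := by
    rw [← Complex.ofReal_pow, Real.sq_sqrt (r2_pos hz).le]
    simp only [dot, cj, r2, Complex.mul_conj, Complex.ofReal_add]
  rw [h, ss, ← mul_pow, inv_mul_cancel₀ (sqrt_ne hz), one_pow]

theorem ss_sc (w : Circle) (z : E3) : ss (sc w z) = ss z := by
  simp only [ss, r2, sc, map_mul, Circle.normSq_coe, one_mul]

theorem continuous_Bm {X : Type} [TopologicalSpace X] {a b y : X → E3} {s : X → ℂ}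
    (ha : Continuous a) (hb : Continuous b) (hs : Continuous s) (hy : Continuous y) :
    Continuous fun x => Bm (a x) (b x) (s x) (y x) := by
  unfold Bm dot
  fun_prop

theorem continuous_cj : Continuous cj := by
  unfold cj
  fun_prop

theorem continuous_r2 : Continuous r2 := by
  have h := Complex.continuous_normSq
  unfold r2
  fun_prop

/-- the trivialisation over a set of nonzero vectors -/
def triv (S : Set E3) (hS : ∀ z ∈ S, z ≠ (0, 0, 0, ())) : S × E3 ≃ₜ S × E3 :=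
  have ha : Continuous fun p : S × E3 => (p.1 : E3) := continuous_subtype_val.comp continuous_fst
  have hs : Continuous fun p : S × E3 => ss p.1 :=
    (Complex.continuous_ofReal.comp (Real.continuous_sqrt.comp (continuous_r2.comp ha))).inv₀
      fun p => sqrt_ne (hS _ p.1.2)
  { toFun := fun p => (p.1, Bm p.1 (cj p.1) (ss p.1) p.2)
    invFun := fun p => (p.1, Bm (cj p.1) p.1 (-ss p.1) p.2)
    left_inv := fun p => Prod.ext rfl (Bm_Bm _ _ _ (ss_dot (hS _ p.1.2)) _)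
    right_inv := fun p => Prod.ext rfl (Bm_Bm' _ _ _ (ss_dot (hS _ p.1.2)) _)
    continuous_toFun :=
      continuous_fst.prodMk (continuous_Bm ha (continuous_cj.comp ha) hs continuous_snd)
    continuous_invFun :=
      continuous_fst.prodMk (continuous_Bm (continuous_cj.comp ha) ha hs.neg continuous_snd) }

theorem Bm_rot (z y : E3) : Bm (sc z3 z) (cj (sc z3 z)) (ss (sc z3 z)) (sc z3 y) =
    Bm z (cj z) (ss z) y := by
  rw [cj_sc, ss_sc]
  refine Bm_sc _ _ _ _ _ ?_ ?_ y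
  · rw [← Circle.coe_mul, ← Circle.coe_mul, z3_cube, Circle.coe_one]
  · rw [mul_comm, Complex.mul_conj, Circle.normSq_coe, Complex.ofReal_one]

theorem cofib_org : LC.Cofib (LC.point (X := LC.of ℂ) (0 : ℂ)) := by
  have h : Topology.IsClosedEmbedding fun _ : Unit => (0 : ℂ) :=
    continuous_const.isClosedEmbedding fun _ _ _ => rfl
  refine LC.cofib_ofClosed (C := LC.of Unit) (D := LC.of ℂ) _ h ?_
  rw [Set.range_const]
  exact LC.pndr_origin ℂ

theorem cofib_pa {L : LC} {a : 𝟙_ LC ⟶ L} (h : LC.Cofib a) : ∀ k : ℕ, LC.Cofib (pa a k)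
  | 0 => LC.cofib_id _
  | k + 1 => (cofib_pa h k).comp' ((LC.cofib_of_iso (λ_ _).symm).comp' (h.whiskerRight' _))

/-- the third power of the rotation plane -/
abbrev V : K2 := Pw (Pl v1 hv1) 3

/-- the third power of the plane -/
abbrev V0 : K2 := Pw (v2.obj CCF) 3

/-- the origin -/
abbrev o : 𝟙_ K2 ⟶ V := pa (org v1 hv1) 3

theorem o_eq : o.hom.hom.hom = pa (LC.point (X := LC.of ℂ) (0 : ℂ)) 3 :=
  LC.hom_ext fun _ => rfl

theorem cof_o : LC.Cofib o.hom.hom.hom := o_eq ▸ cofib_pa cofib_org 3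

theorem ne_zero (z : E3) (hz : z ∈ LC.cofSet o.hom.hom.hom) : z ≠ (0, 0, 0, ()) := by
  rintro rfl
  exact hz ⟨((() : Unit) : OnePoint Unit), rfl⟩

theorem o_γ : o.hom.hom.hom ≫ V.γ.hom.hom = o.hom.hom.hom :=
  (congrArg (·.hom.hom) o.comm).symm

theorem sub_id : V.obj.γ.hom = 𝟙 _ := LC.hom_ext fun _ => rfl

theorem γ_cube : V.γ.hom.hom ≫ V.γ.hom.hom ≫ V.γ.hom.hom = 𝟙 _ :=
  (congrArg (·.hom.hom) V.cube).trans sub_id

/-- the action on the complement of the origin -/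
def gZ : LC.cof o.hom.hom.hom ⟶ LC.cof o.hom.hom.hom :=
  LC.cofDesc _ (V.γ.hom.hom ≫ LC.cofMap _) (by rw [← Category.assoc, o_γ, LC.comp_cofMap])

@[reassoc] theorem cofMap_gZ : LC.cofMap _ ≫ gZ = V.γ.hom.hom ≫ LC.cofMap _ :=
  LC.cofMap_cofDesc _ _ _

theorem gZ_cube : gZ ≫ gZ ≫ gZ = 𝟙 _ := by
  rw [← cancel_epi (LC.cofMap o.hom.hom.hom), cofMap_gZ_assoc, cofMap_gZ_assoc, cofMap_gZ,
    reassoc_of% γ_cube, Category.comp_id]

theorem app_gZ (u : LC.cof o.hom.hom.hom) : ∃ u' : LC.cof o.hom.hom.hom,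
    LC.app gZ u = u' ∧ u'.1 = sc z3 u.1 := by
  refine ⟨⟨sc z3 u.1, ?_⟩, LC.app_cofMap_coe o.hom.hom.hom ⟨sc z3 u.1, _⟩, rfl⟩
  rintro ⟨x, hx⟩
  apply u.2
  refine ⟨x, ?_⟩
  have h1 : LC.app (V.γ.hom.hom ≫ V.γ.hom.hom) (LC.app o.hom.hom.hom x) =
      LC.app o.hom.hom.hom x := by
    rw [← LC.app_comp, ← Category.assoc, o_γ, o_γ]
  rw [← h1, hx]
  exact congrArg (fun f => LC.app f u.1) γ_cube

/-- the complement of the origin -/
def Z : K2 := ⟨v1.obj (cofF o.hom.hom cof_o), Rt.homMk (FCat.hom gZ)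
    ((Category.id_comp _).trans (Category.comp_id _).symm),
  Rt.hom_ext (ObjectProperty.hom_ext _ gZ_cube)⟩

/-- the collapse -/
def q : V ⟶ Z := Rt.homMk (Rt.homMk (cofMapF o.hom.hom cof_o)
    (ObjectProperty.hom_ext _ ((congrArg (· ≫ LC.cofMap o.hom.hom.hom) sub_id).trans
      ((Category.id_comp _).trans (Category.comp_id _).symm))))
  (Rt.hom_ext (ObjectProperty.hom_ext _ cofMap_gZ.symm))

theorem isCof : IsCof (Rt.U _ ⋙ Rt.U _ ⋙ 𝟭 _) o q := ⟨cof_o, LC.isPushout_cofMap _⟩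

/-- the trivialisation -/
def eL : LC.cof o.hom.hom.hom ⊗ LC.of E3 ≅ LC.cof o.hom.hom.hom ⊗ LC.of E3 :=
  LC.ofHomeo (triv (LC.cofSet o.hom.hom.hom) ne_zero)

theorem app_eL (u : LC.cof o.hom.hom.hom) (y : E3) :
    LC.app eL.hom (LC.smash (u : OnePoint (LC.cof o.hom.hom.hom)) (y : OnePoint E3)) =
      LC.smash (u : OnePoint (LC.cof o.hom.hom.hom))
        ((Bm u.1 (cj u.1) (ss u.1) y : E3) : OnePoint E3) := rfl

/-- the action of the generator -/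
def gV : LC.of E3 ⟶ LC.of E3 := V.γ.hom.hom

theorem app_gV (y : E3) : LC.app gV (y : OnePoint E3) = ((sc z3 y : E3) : OnePoint E3) := rfl

theorem eL_comm : (gZ ⊗ₘ gV) ≫ eL.hom = eL.hom ≫ (gZ ⊗ₘ 𝟙 _) := by
  refine LC.tensor_ext fun u y => ?_
  obtain ⟨u', h, h'⟩ := app_gZ u
  rw [LC.app_comp, LC.app_comp, app_eL, LC.app_tensorHom_smash, LC.app_tensorHom_smash, h, app_gV,
    app_eL, h', LC.app_id]
  exact congrArg (fun t : E3 => LC.smash (u' : OnePoint (LC.cof o.hom.hom.hom)) (t : OnePoint E3))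
    (Bm_rot u.1 y)

theorem sub_id0 : V0.obj.γ.hom = 𝟙 _ := LC.hom_ext fun _ => rfl

theorem γ_id0 : V0.γ.hom.hom = 𝟙 _ := LC.hom_ext fun _ => rfl

theorem sub_ZV : (Z ⊗ V).obj.γ = 𝟙 _ := ObjectProperty.hom_ext _
  ((congrArg (𝟙 (LC.cof o.hom.hom.hom) ⊗ₘ ·) sub_id).trans (id_tensorHom_id _ _))

theorem sub_ZV0 : (Z ⊗ V0).obj.γ = 𝟙 _ := ObjectProperty.hom_ext _
  ((congrArg (𝟙 (LC.cof o.hom.hom.hom) ⊗ₘ ·) sub_id0).trans (id_tensorHom_id _ _))

/-- the trivialisation -/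
def e0 : (Z ⊗ V).obj.obj ≅ (Z ⊗ V0).obj.obj := ObjectProperty.isoMk _ eL

/-- the trivialisation -/
def e1 : (Z ⊗ V).obj ≅ (Z ⊗ V0).obj :=
  Rt.isoMk e0 (by rw [sub_ZV, sub_ZV0, Category.id_comp, Category.comp_id])

/-- the equivariant trivialisation -/
def e2 : Z ⊗ V ≅ Z ⊗ V0 :=
  Rt.isoMk e1 (Rt.hom_ext (ObjectProperty.hom_ext _
    (eL_comm.trans (congrArg (fun g => eL.hom ≫ (gZ ⊗ₘ g)) γ_id0.symm))))

section

variable {K C : Type 1} [Category.{0} K] [MonoidalCategory K] [Category.{0} C] [MonoidalCategory C]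

/-- powers of isomorphic objects -/
def pwIso {A B : C} (e : A ≅ B) : ∀ k : ℕ, Pw A k ≅ Pw B k
  | 0 => Iso.refl _
  | k + 1 => e ⊗ᵢ pwIso e k

variable (J : K ⥤ C) [J.Monoidal]

/-- a monoidal functor preserves powers -/
def pwJ (A : K) : ∀ k : ℕ, Pw (J.obj A) k ≅ J.obj (Pw A k)
  | 0 => Functor.Monoidal.εIso J
  | k + 1 => whiskerLeftIso _ (pwJ A k) ≪≫ Functor.Monoidal.μIso J A (Pw A k)

theorem pa_pwJ {A : K} (a : 𝟙_ K ⟶ A) :
    ∀ k : ℕ, pa (ε J ≫ J.map a) k ≫ (pwJ J A k).hom = ε J ≫ J.map (pa a k)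
  | 0 => (Category.id_comp _).trans
      ((congrArg (ε J ≫ ·) (J.map_id _)).trans (Category.comp_id _)).symm
  | k + 1 => by
    change (pa (ε J ≫ J.map a) k ≫ (λ_ _).inv ≫ (ε J ≫ J.map a) ▷ Pw (J.obj A) k) ≫
      J.obj A ◁ (pwJ J A k).hom ≫ μ J A (Pw A k) =
      ε J ≫ J.map (pa a k ≫ (λ_ _).inv ≫ a ▷ Pw A k)
    rw [Category.assoc, Category.assoc, ← whisker_exchange_assoc,
      ← leftUnitor_inv_naturality_assoc, reassoc_of% pa_pwJ a k, comp_whiskerRight, Category.assoc,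
      μ_natural_left, J.map_comp, J.map_comp, Functor.Monoidal.map_leftUnitor_inv]
    simp only [Category.assoc]

end

end Jam

open Jam in
/-- (JAM) -/
theorem jam : JAM := fun W =>
  ⟨W.L₂.J.obj Z, (pwJ W.L₂.J _ 3).hom ≫ W.L₂.J.map q, _,
    Tr.dist_iso (W.L₂.dist isCof) (Functor.Monoidal.εIso W.L₂.J) (pwJ W.L₂.J _ 3) (Iso.refl _)
      (pa_pwJ W.L₂.J _ 3) (Category.comp_id _),
    ⟨whiskerLeftIso _ (pwJ W.L₂.J _ 3) ≪≫ Functor.Monoidal.μIso W.L₂.J Z V ≪≫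
      W.L₂.J.mapIso e2 ≪≫ (Functor.Monoidal.μIso W.L₂.J Z V0).symm ≪≫
      whiskerLeftIso _ ((pwJ W.L₂.J _ 3).symm ≪≫ pwIso (W.L₂.Jtv.app CCF) 3)⟩⟩

end Vale.Agent.P236Z.Q
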