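import Vale.Agent.P236Z.Q.One

/-!
# P236, block Q: the class of stem three does not vanish on the circle
-/

open CategoryTheory MonoidalCategory Limits Pretriangulated
open Functor.LaxMonoidal Functor.OplaxMonoidal
open Vale.Agent.P251 Vale.Agent.P251.T Vale.Agent.P251.G Vale.Agent.P251.M Vale.Agent.P251.S
  Vale.Agent.P251.I Vale.Agent.P236Z.Cat Vale.Agent.P236Z.Top

set_option linter.unusedSectionVars false

noncomputable section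

namespace Vale.Agent.P236Z.Q

theorem dvd_of_order_three {G : Type} [AddCommGroup G] {w : G} (h0 : w ≠ 0) (h3 : (3 : ℤ) • w = 0)
    {c : ℤ} (h : (c * (c * 2)) • w = 0) : 3 ∣ c := by
  by_contra hc
  have h1 : ∃ k : ℤ, c * (c * 2) = 3 * k - 1 := by
    obtain ⟨k, hk | hk⟩ : ∃ k : ℤ, c = 3 * k + 1 ∨ c = 3 * k + 2 := ⟨c / 3, by omega⟩
    · exact ⟨6 * k * k + 4 * k + 1, by rw [hk]; ring⟩
    · exact ⟨6 * k * k + 8 * k + 3, by rw [hk]; ring⟩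
  obtain ⟨k, hk⟩ := h1
  rw [hk, sub_zsmul, mul_comm, mul_zsmul, h3, zsmul_zero, one_zsmul, zero_add, neg_eq_zero] at h
  exact h0 h

variable {W : Tower} {m : Mdl W}

theorem AlD.sp (a : AlD m) : Sp W.s₂ a.A 3 := (sp_sph 3).iso a.sph.some

theorem AlD.γC (a : AlD m) : W.s₂.γ a.C = 𝟙 _ :=
  (congrArg W.s₂.U.F.map a.hC).trans (W.s₂.U.F.map_id _)

namespace Rep

variable (R : Rep W)

theorem exch {A Z : W.T₂.C} (α : A ⟶ 𝟙_ _) (ι : 𝟙_ _ ⟶ Z) :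
    R.p ▷ A ≫ (λ_ A).hom ≫ α ≫ ι = R.P ◁ α ≫ (ρ_ _).hom ≫ R.p ≫ ι := by
  rw [← leftUnitor_naturality_assoc, ← whisker_exchange_assoc, unitors_equal,
    rightUnitor_naturality_assoc]

/-- an invariant extension of a multiple of the unit over the cone -/
theorem inv_ext (a : AlD m) (c : ℤ) (h : c • (R.P ◁ a.α ≫ (ρ_ _).hom ≫ R.one m) = 0) :
    ∃ ψ : W.s₂.U.F.obj a.C ⟶ W.s₂.U.F.obj (m.Z (0 + 22)), ψ ≫ W.s₂.γ _ = ψ ∧
      W.s₂.U.F.map a.i ≫ ψ = c • W.s₂.U.F.map (m.Y.one ≫ m.st 22) := by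
  obtain ⟨d, D⟩ := Tr.dist_tensL a.D R.P
  obtain ⟨k, hk⟩ := D.desc₂ (c • ((ρ_ _).hom ≫ R.one m)) (by rw [Preadditive.comp_zsmul, h])
  refine ⟨(λ_ _).inv ≫ (R.cir.tensor a.C a.γC).bot k, by rw [Category.assoc, Cir.bot_γ], ?_⟩
  have h1 := R.cir.bot_left sp_unit.2 a.γC a.i k
  have h2 : (ρ_ _).hom ≫ R.one m = R.p ▷ 𝟙_ _ ≫ (ρ_ _).hom ≫ m.Y.one ≫ m.st 22 := by
    rw [rightUnitor_naturality_assoc, one]
  rw [leftUnitor_inv_naturality_assoc, ← h1, hk, Cir.bot_zsmul, h2, Cir.bot_comp,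
    R.cir.bot_tensor _ _ R.p, bot_p, ← unitors_equal, Functor.map_comp, Preadditive.comp_zsmul,
    Category.assoc, ← Functor.LaxMonoidal.left_unitality_assoc, Iso.inv_hom_id_assoc]

/-- the generator of the first homotopy group times the class -/
theorem gen (r : m.Rows) (a : AlD m) (c : ℤ)
    (h : c • (R.P ◁ a.α ≫ (ρ_ _).hom ≫ R.one m) = 0)
    (n : (W.s₂.U.F.obj (𝟙_ _))⟦(1 : ℤ)⟧ ⟶ W.s₂.U.F.obj (m.Z (0 + 22))) :
    ∃ z, c • ((W.s₂.U.F.map a.α)⟦(1 : ℤ)⟧' ≫ n) = z ≫ W.s₂.γ _ - z := by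
  obtain ⟨ξ, h3, hξ⟩ := r.r4 R.P R.e₀ R.e₁ R.p R.D R.he
  obtain ⟨z, hz⟩ := ((R.cir.tensor a.A a.sp.2).e₁_zero_iff
    (c • (R.cir.F₁ ◁ a.α ≫ (ρ_ _).hom ≫ ξ))).1 (by
      have h4 : (3 : ℤ) • R.one m = R.e₁ ≫ ξ := h3
      change R.e₁ ▷ a.A ≫ _ = 0
      rw [Preadditive.comp_zsmul, ← whisker_exchange_assoc, rightUnitor_naturality_assoc, ← h4,
        Preadditive.comp_zsmul, Preadditive.comp_zsmul, smul_comm, h, smul_zero])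
  rw [Cir.top_zsmul, R.cir.top_left, top_eq] at hz
  let t : (𝟙_ W.T₁.C)⟦(1 : ℤ)⟧ ≅ (𝟙_ W.T₁.C)⟦(1 : ℤ)⟧ := (sphTensor 1 _).symm ≪≫ ρ_ _
  obtain ⟨c', hc'⟩ := hξ (t.inv ≫ (ε W.s₂.U.F)⟦(1 : ℤ)⟧' ≫ n)
  have hn : n = c' • ((η W.s₂.U.F)⟦(1 : ℤ)⟧' ≫ t.hom ≫ Mdl.flat1 ξ) := by
    rw [← Preadditive.comp_zsmul, ← Preadditive.comp_zsmul, ← hc', Iso.hom_inv_id_assoc,
      ← Functor.map_comp_assoc, Functor.Monoidal.η_ε, CategoryTheory.Functor.map_id,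
      Category.id_comp]
  have h5 : (W.s₂.U.F.map a.α)⟦(1 : ℤ)⟧' ≫ (η W.s₂.U.F)⟦(1 : ℤ)⟧' ≫ t.hom ≫ Mdl.flat1 ξ =
      (sphTensor 1 _).inv ≫ _ ◁ (W.s₂.U.F.map a.α ≫ η W.s₂.U.F) ≫ (ρ_ _).hom ≫ Mdl.flat1 ξ := by
    rw [← cancel_epi (sphTensor 1 _).hom, Iso.hom_inv_id_assoc, ← Functor.map_comp_assoc,
      ← sphTensor_naturality_assoc]
    simp only [t, Iso.trans_hom, Iso.symm_hom, Category.assoc, Iso.hom_inv_id_assoc]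
  refine ⟨c' • ((sphTensor 1 _).inv ≫ z), ?_⟩
  rw [hn, Preadditive.comp_zsmul, h5, smul_comm, ← Preadditive.comp_zsmul, hz,
    Preadditive.zsmul_comp, ← smul_sub, Category.assoc, Preadditive.comp_sub]

/-- (KEY) -/
theorem key (r : m.Rows) (a : AlD m) (c : ℤ)
    (h : c • (R.p ▷ a.A ≫ (λ_ _).hom ≫ a.α ≫ m.Y.one ≫ m.st 22) = 0) : 3 ∣ c := by
  rw [exch] at h
  obtain ⟨ψ, h1, h2⟩ := R.inv_ext a c h
  have D : H.Dist (W.s₂.U.F.map a.α) (W.s₂.U.F.map a.i)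
      (W.s₂.U.F.map a.q ≫ (W.s₂.U.F.commShiftIso (1 : ℤ)).hom.app a.A) :=
    W.s₂.U.F.map_distinguished _ a.D
  obtain ⟨x, hx⟩ := D.desc₃ (ψ - c • a.ψ) (by
    rw [Preadditive.comp_sub, h2, Preadditive.comp_zsmul, a.res, sub_self])
  let j : (𝟙_ W.T₁.C)⟦(4 : ℤ)⟧ ≅ (W.s₂.U.F.obj a.A)⟦(1 : ℤ)⟧ :=
    a.k.symm ≪≫ (W.s₂.U.F.commShiftIso (1 : ℤ)).app a.A
  obtain ⟨n, hn⟩ := D.desc₁ ((c * 2) • (j.inv ≫ m.cls a.κ a.τ ≫ W.s₂.U.F.map (m.st 22)) +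
      (x ≫ W.s₂.γ _ - x)) (by
    have h3 : (W.s₂.U.F.map a.q ≫ (W.s₂.U.F.commShiftIso (1 : ℤ)).hom.app a.A) ≫ j.inv =
        W.s₂.U.F.map a.q ≫ a.k.hom := by
      simp only [j, Iso.trans_inv, Iso.symm_inv, Iso.app_inv, Category.assoc,
        Iso.hom_inv_id_app_assoc]
    rw [Preadditive.comp_add, Preadditive.comp_zsmul, ← Category.assoc _ j.inv, h3,
      Preadditive.comp_sub, ← Category.assoc _ x, hx, Preadditive.sub_comp, h1,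
      Preadditive.zsmul_comp, a.var, smul_add, mul_zsmul, Category.assoc]
    abel)
  obtain ⟨z, hz⟩ := R.gen r a c h n
  obtain ⟨w0, w3, w⟩ := r.r7 a.κ a.τ a.unit
  have h4 := (w (j.hom ≫ (z - c • x))).1
  have h5 : (j.hom ≫ (z - c • x)) ≫ W.s₂.γ _ - j.hom ≫ (z - c • x) =
      (c * (c * 2)) • (m.cls a.κ a.τ ≫ W.s₂.U.F.map (m.st 22)) := by
    rw [hn, smul_add, ← eq_sub_iff_add_eq] at hz
    rw [← j.hom_inv_id_assoc (m.cls a.κ a.τ ≫ _), ← Preadditive.comp_zsmul, mul_zsmul, hz,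
      Category.assoc, ← Preadditive.comp_sub, Preadditive.sub_comp, Preadditive.zsmul_comp,
      smul_sub]
    exact congrArg (j.hom ≫ ·) (by abel)
  rw [h5, Preadditive.zsmul_comp, Category.assoc, ← Functor.map_comp] at h4
  exact dvd_of_order_three w0 w3 h4

end Rep

end Vale.Agent.P236Z.Q
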