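import Vale.Agent.P236Z.Q.Defs
import Mathlib.RingTheory.RootsOfUnity.Complex
import Mathlib.Topology.Algebra.Polynomial

/-!
# P236, block Q, row NL: an equivariant proper map from the norm of the plane to `L ^ 3`
-/

open CategoryTheory MonoidalCategory Limits Pretriangulated
open Functor.LaxMonoidal Functor.OplaxMonoidal
open Vale.Agent.P251 Vale.Agent.P251.T Vale.Agent.P251.G Vale.Agent.P251.M Vale.Agent.P251.S
  Vale.Agent.P251.F Vale.Agent.P251.I Vale.Agent.P251.X Vale.Agent.P236Z.Cat Vale.Agent.P236Z.Mod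
  Vale.Agent.P236Z.Top

set_option linter.all false

noncomputable section

namespace Vale.Agent.P236Z.Q

namespace Nl

section cat

variable {K T : Type 1} [Category.{0} K] [MonoidalCategory K] [Category.{0} T] [MonoidalCategory T]
  (J : K ⥤ T) [J.Monoidal] {A : K}

/-- a monoidal functor commutes with powers -/
def pwJ (A : K) : ∀ k : ℕ, J.obj (Pw A k) ⟶ Pw (J.obj A) k
  | 0 => η J
  | k + 1 => δ J A (Pw A k) ≫ J.obj A ◁ pwJ A k

theorem pa_pwJ (a : 𝟙_ K ⟶ A) : ∀ k : ℕ, ε J ≫ J.map (pa a k) ≫ pwJ J A k = pa (ε J ≫ J.map a) k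
  | 0 => by
    change ε J ≫ J.map (𝟙 _) ≫ η J = 𝟙 _
    simp
  | k + 1 => by
    change ε J ≫ J.map (pa a k ≫ (λ_ _).inv ≫ a ▷ Pw A k) ≫ δ J A (Pw A k) ≫ J.obj A ◁ pwJ J A k =
      pa (ε J ≫ J.map a) k ≫ (λ_ _).inv ≫ (ε J ≫ J.map a) ▷ Pw (J.obj A) k
    rw [← pa_pwJ a k, J.map_comp, J.map_comp, Category.assoc, Category.assoc,
      ← δ_natural_left_assoc, Functor.Monoidal.map_leftUnitor_inv, Category.assoc, Category.assoc,
      Functor.Monoidal.μ_δ_assoc, ← comp_whiskerRight_assoc, ← whisker_exchange,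
      ← leftUnitor_inv_naturality_assoc, Category.assoc, Category.assoc]

theorem nat_unit {K' T' : Type 1} [Category.{0} K'] [MonoidalCategory K'] [Category.{0} T']
    [MonoidalCategory T'] (N : T ⥤ T') (N' : K ⥤ K') (J' : K' ⥤ T') [N.LaxMonoidal]
    [N'.LaxMonoidal] [J'.LaxMonoidal] (τ : J ⋙ N ⟶ N' ⋙ J') [NatTrans.IsMonoidal τ]
    (a : 𝟙_ K ⟶ A) {B : K'} (φ : N'.obj A ⟶ B) {C : T'} (r : J'.obj B ⟶ C) :
    ε N ≫ N.map (ε J ≫ J.map a) ≫ τ.app A ≫ J'.map φ ≫ r =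
      ε J' ≫ J'.map (ε N' ≫ N'.map a ≫ φ) ≫ r := by
  have h1 : (ε N ≫ N.map (ε J)) ≫ τ.app _ = ε J' ≫ J'.map (ε N') :=
    NatTrans.IsMonoidal.unit (τ := τ)
  have h2 : N.map (J.map a) ≫ τ.app A = τ.app _ ≫ J'.map (N'.map a) := τ.naturality a
  rw [Category.assoc] at h1
  rw [N.map_comp, Category.assoc, reassoc_of% h2, reassoc_of% h1, J'.map_comp, J'.map_comp,
    Category.assoc, Category.assoc]

end cat

/-- the ninth root of unity -/
abbrev s : ℂ := z9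

theorem prim : IsPrimitiveRoot s 9 := by
  have h := Complex.isPrimitiveRoot_exp 9 (by norm_num)
  rwa [show Complex.exp (2 * Real.pi * Complex.I / (9 : ℕ)) = s by
    rw [s, z9, Circle.coe_exp]
    congr 1
    push_cast
    ring] at h

theorem s9 : s ^ 9 = 1 := prim.pow_eq_one

theorem s6 : s ^ 6 + s ^ 3 + 1 = 0 := by
  have h : s ^ 3 - 1 ≠ 0 := sub_ne_zero.2 (prim.pow_ne_one_of_pos_of_lt (by norm_num) (by norm_num))
  refine (mul_eq_zero.1 (show (s ^ 3 - 1) * _ = 0 from ?_)).resolve_left h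
  linear_combination s9

theorem z3_eq : (z3 : ℂ) = s ^ 3 := by
  rw [z3, Circle.coe_mul, Circle.coe_mul]
  ring

/-- the linear forms -/
def lf (m : ℂ) : (ℂ × ℂ × ℂ) →ₗ[ℂ] ℂ where
  toFun x := x.1 + m * x.2.1 + m ^ 2 * x.2.2
  map_add' x y := by simp; ring
  map_smul' c x := by simp; ring

theorem lf_apply (m : ℂ) (a b c : ℂ) : lf m (a, b, c) = a + m * b + m ^ 2 * c := rfl

theorem inj : LinearMap.ker ((lf s).prod ((lf (s ^ 4)).prod (lf (s ^ 7)))) = ⊥ := by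
  refine LinearMap.ker_eq_bot'.2 ?_
  rintro ⟨a, b, c⟩ h
  have h1 : a + s * b + s ^ 2 * c = 0 := congrArg Prod.fst h
  have h2 : a + s ^ 4 * b + (s ^ 4) ^ 2 * c = 0 := congrArg (fun x => x.2.1) h
  have h3 : a + s ^ 7 * b + (s ^ 7) ^ 2 * c = 0 := congrArg (fun x => x.2.2) h
  have ha : a = 0 := by
    linear_combination (h1 + h2 + h3 - (s * b + s ^ 2 * c) * s6 - s ^ 5 * c * s9) / 3
  have hb : b = 0 := by
    linear_combination (s ^ 8 * h1 + s ^ 5 * h2 + s ^ 2 * h3 - (s ^ 2 * a + s ^ 10 * c) * s6 -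
      3 * b * s9) / 3
  have hc : c = 0 := by
    rw [ha, hb] at h1
    linear_combination s ^ 7 * h1 - c * s9
  rw [ha, hb, hc]
  rfl

theorem pow_proper {n : ℕ} (hn : 0 < n) : IsProperMap fun z : ℂ => z ^ n := by
  have h := Polynomial.isProperMap_eval (Polynomial.X ^ n : Polynomial ℂ) (by simpa using hn)
  simpa only [Polynomial.eval_pow, Polynomial.eval_X] using h

/-- the map -/
def ph (x : ℂ × ℂ × ℂ) : ℂ × ℂ × ℂ × Unit := (lf s x, lf (s ^ 4) x ^ 7, lf (s ^ 7) x ^ 4, ())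

theorem ph_proper : IsProperMap ph :=
  (isProperMap_id.prodMap ((pow_proper (n := 7) (by norm_num)).prodMap
    ((Homeomorph.prodUnique ℂ Unit).symm.isProperMap.comp (pow_proper (n := 4) (by norm_num))))).comp
    (LinearMap.isClosedEmbedding_of_injective inj).isProperMap

theorem ph_sub (a b c : ℂ) : ph (z3 * a, z3 * b, z3 * c) =
    (z3 * (ph (a, b, c)).1, z3 * (ph (a, b, c)).2.1, z3 * (ph (a, b, c)).2.2.1, ()) := by
  have h : ∀ m, lf m (z3 * a, z3 * b, z3 * c) = s ^ 3 * lf m (a, b, c) := fun m => by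
    rw [lf_apply, lf_apply, z3_eq]
    ring
  simp only [ph, h]
  rw [z3_eq, mul_pow, mul_pow, show (s ^ 3) ^ 7 = s ^ 3 by linear_combination (s ^ 12 + s ^ 3) * s9,
    show (s ^ 3) ^ 4 = s ^ 3 by linear_combination s ^ 3 * s9]

theorem ph_rot (a b c : ℂ) : ph (z3 * c, a, b) =
    (s * (ph (a, b, c)).1, s * (ph (a, b, c)).2.1, s * (ph (a, b, c)).2.2.1, ()) := by
  have h : ∀ m, m ^ 3 = s ^ 3 → lf m (z3 * c, a, b) = m * lf m (a, b, c) := fun m hm => by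
    rw [lf_apply, lf_apply, z3_eq, ← hm]
    ring
  have k : s ^ 28 = s := by linear_combination (s ^ 19 + s ^ 10 + s) * s9
  simp only [ph, h s rfl, h (s ^ 4) (by linear_combination s ^ 3 * s9),
    h (s ^ 7) (by linear_combination (s ^ 12 + s ^ 3) * s9), mul_pow, ← pow_mul, k]

/-- the map of spaces -/
def phF : CCF ⊗ CCF ⊗ CCF ⟶ CCF ⊗ CCF ⊗ CCF ⊗ 𝟙_ FCat :=
  FCat.hom (LC.ofProper (X := LC.of (ℂ × ℂ × ℂ)) (Y := LC.of (ℂ × ℂ × ℂ × Unit)) ph
    ph_proper.continuous (isProperMap_iff_tendsto_cocompact.1 ph_proper).2)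

/-- the equivariant map -/
def phK : (Rt.N (Rt.tw (Tw.id FCat))).obj (Pl (𝟭 FCat) hv0) ⟶ Pw Pl9 3 :=
  Rt.homMk (Rt.homMk phF (by
    apply ObjectProperty.hom_ext
    apply LC.hom_ext
    rintro ⟨a, b, c⟩
    exact congrArg OnePoint.some (ph_sub a b c))) (Rt.hom_ext (by
    apply ObjectProperty.hom_ext
    apply LC.hom_ext
    rintro ⟨a, b, c⟩
    exact congrArg OnePoint.some (ph_rot a b c)))

theorem phK_org : ε (Rt.N (Rt.tw (Tw.id FCat))) ≫ (Rt.N _).map (org (𝟭 FCat) hv0) ≫ phK =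
    pa org9 3 := by
  refine Rt.hom_ext ?_
  rw [Rt.comp_hom, Rt.N_ε, cube_ε]
  refine Rt.hom_ext ?_
  apply ObjectProperty.hom_ext
  apply LC.hom_ext
  intro x
  exact congrArg OnePoint.some (show ph (0, 0, 0) = (0, 0, 0, ()) by simp [ph, lf_apply])

end Nl

theorem nl : NL := fun W =>
  ⟨W.s₂.JN.hom.app (Pl (𝟭 FCat) hv0) ≫ W.L₂.J.map Nl.phK ≫ Nl.pwJ W.L₂.J Pl9 3,
    (Nl.nat_unit W.L₁.J W.s₂.N _ W.L₂.J W.s₂.JN.hom (org (𝟭 FCat) hv0) Nl.phK _).trans (by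
      rw [Nl.phK_org]
      exact Nl.pa_pwJ W.L₂.J org9 3)⟩

end Vale.Agent.P236Z.Q
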