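import Vale.Agent.P236Z.Q.Defs
import Vale.Agent.P236Z.Mod.Gen

/-!
# P236, block Q: the coordinate of the orientation on the projective space of dimension three
-/

open CategoryTheory MonoidalCategory Limits Pretriangulated
open Functor.LaxMonoidal Functor.OplaxMonoidal
open Vale.Agent.P251 Vale.Agent.P251.T Vale.Agent.P251.G Vale.Agent.P251.M Vale.Agent.P251.S
  Vale.Agent.P251.F Vale.Agent.P251.I Vale.Agent.P251.X Vale.Agent.P236Z.Cat Vale.Agent.P236Z.Mod
  Vale.Agent.P236Z.Top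

set_option linter.unusedSectionVars false

universe v u

noncomputable section

namespace Vale.Agent.P236Z.Q

namespace Xc

section theory

open Vale.Agent.P251.Q Vale.Agent.P251.Q.MultTheory

variable {E : MultTheory.{v}} (o : Orientation E) {I J : Type} [Fintype I] [Fintype J]

/-- the powers of the Thom class -/
def tp (I : Type) [Fintype I] : ℕ → E.U (LC.of (Th 1 I))
  | 0 => o.tau 1 I
  | i + 1 => tp I i * o.tau 1 I

theorem tp_deg (i : ℕ) : tp o I i ∈ E.deg (LC.of (Th 1 I)) (i + 1) := by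
  induction i with
  | zero => exact o.tau_deg 1 I
  | succ i ih => exact mul_deg ih (o.tau_deg 1 I)

theorem col_tp (i : ℕ) : E.map Gr.collapse (tp o I i) = o.z (I ⊕ Unit) ^ (i + 1) := by
  induction i with
  | zero => exact (z_collapse o).trans (pow_one _).symm
  | succ i ih => rw [tp, map_mul', ih, z_collapse, ← pow_succ]

theorem inj_tp [DecidableEq I] [DecidableEq J] (f : I → J) (hf : Function.Injective f) (i : ℕ) :
    E.map (Th.inj f hf) (tp o J i) = tp o I i := by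
  induction i with
  | zero => exact tau_map o 1 _ _
  | succ i ih => rw [tp, map_mul', ih, tau_map, tp]

theorem app_tp {E' : MultTheory.{v}} (φ : Hom E E') (i : ℕ) :
    φ.app _ (tp o I i) = tp (φ.push o) I i := by
  induction i with
  | zero => rfl
  | succ i ih => rw [tp, φ.app_mul, ih, tp, Hom.push_tau]

theorem col_inj {x y : E.U (LC.of (Th 1 I))} (h : E.map Gr.collapse x = E.map Gr.collapse y) :
    x = y := by
  refine (map_iso_bijective (λ_ _)).1 (collapse_injective (𝟙_ LC) I ?_)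
  rw [← one_cross, ← one_cross, ← cross_map_right, ← cross_map_right, h]

theorem tp_zero {i : ℕ} (h : Fintype.card I ≤ i) : tp o I i = 0 :=
  col_inj (by rw [col_tp, map_zero]; exact z_pow_eq_zero o _ _ (by simpa using h))

theorem col_sum {N : ℕ} (a : Fin N → E.A) : E.map Gr.collapse (∑ i, a i • tp o I i) =
    ∑ i, a i • o.z (I ⊕ Unit) ^ ((i : ℕ) + 1) := by
  rw [map_sum]
  exact Finset.sum_congr rfl fun i _ => by rw [MultTheory.map_smul, col_tp]

theorem tp_li {N : ℕ} (h : Fintype.card I = N) (a : Fin N → E.A) (ha : ∑ i, a i • tp o I i = 0)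
    (i : Fin N) : a i = 0 := by
  have h1 := col_sum o (I := I) a
  rw [ha, map_zero] at h1
  refine Fintype.linearIndependent_iff.1
    (freeOn_z o (N + 1) (I ⊕ Unit) (by simp [h])).linearIndependent (Fin.cases 0 a) ?_ i.succ
  rw [Fin.sum_univ_succ, Fin.cases_zero, zero_smul, zero_add]
  exact h1.symm

theorem tp_span {N : ℕ} (h : Fintype.card I = N) (y : E.U (LC.of (Th 1 I))) :
    ∃ a : Fin N → E.A, y = ∑ i, a i • tp o I i := by
  obtain ⟨t, ht⟩ := (psi_bijective o (𝟙_ LC) 1 I).2 (E.cross E.one y)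
  obtain ⟨a, rfl⟩ := (freeOn_z o N I h (𝟙_ LC)).2 t
  refine ⟨fun i => E.toA (a i), col_inj ((map_iso_bijective (λ_ _)).1 ?_)⟩
  rw [← one_cross, cross_map_right, ← ht, col_sum, comb_apply, map_sum, map_sum, map_sum]
  refine Finset.sum_congr rfl fun i _ => ?_
  rw [← addZeroHom_z_pow, collapse_psi_cross, ← pow_succ, smul_def, map_hom_inv]
  rfl

/-- the Thom class of one orientation in terms of the other one -/
theorem tau_cmp (o' : Orientation E) (n : ℕ) : o'.tau 1 (Fin n) = ∑ i : Fin n,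
    (CPSys.Coord.cmp (coordO o) (coordO o') (z_one_eq o' o)).c i • tp o (Fin n) i := by
  refine col_inj ?_
  have h := congrArg (E.map (grMap 1 _ (injMat_isom (finSumUnit n).injective)))
    (z_eq_sum_cmp o o' (z_one_eq o' o) n)
  rw [z_map, map_sum] at h
  rw [z_collapse, col_sum, h]
  exact Finset.sum_congr rfl fun i _ => by rw [MultTheory.map_smul, map_grMap_pow]

/-- `s` is a suspension class -/
def Sus {P : LC} (s : E.U P) : Prop :=
  ∀ (X : LC) [E.Good X], Function.Surjective fun x : E.U X => E.cross x s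

theorem sus_sg : Sus E.sg := fun X _ => (sg_bijective X).2

theorem Sus.cross {P Q : LC} [E.Good P] [E.Good Q] {s : E.U P} {s' : E.U Q} (h : Sus s)
    (h' : Sus s') : Sus (E.cross s s') := fun X _ y => by
  obtain ⟨a, ha⟩ := h' (X ⊗ P) (E.map (α_ X P Q).hom y)
  obtain ⟨b, rfl⟩ := h X a
  exact ⟨b, (map_iso_bijective (α_ X P Q)).1 ((cross_assoc b s s').trans ha)⟩

theorem Sus.smul {P : LC} [E.Good P] {s : E.U P} (h : Sus s) (y : E.U P) :
    ∃ a : E.A, a • s = y := by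
  obtain ⟨a, ha⟩ := h (𝟙_ LC) (E.map (λ_ P).hom y)
  exact ⟨a, (congrArg (E.map (λ_ P).inv) ha).trans (map_inv_hom _ _)⟩

theorem proj_smul' {X : LC} [E.Good X] {k l m : ℤ} (h : l + m = k) (a : E.A) {x : E.U X}
    (hx : x ∈ E.deg X m) : E.proj X k (a • x) = E.toA (E.proj (𝟙_ LC) l (E.ofA a)) • x := by
  subst h
  exact map_proj_of_deg (f := AddMonoidHom.mk' (fun a : E.U (𝟙_ LC) => E.toA a • x)
    fun a b => add_smul (E.toA a) (E.toA b) x) (m := m) (fun k a ha => smul_deg ha hx) l (E.ofA a)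

/-- the top cell -/
theorem top (h0 : ∀ a ∈ E.degA 0, ∃ n : ℤ, a = n) (h1 : ∀ n : ℤ, (n : E.A) = 0 → n = 0)
    {P : LC} [E.Good P] (q : LC.of (Th 1 (Fin 3)) ⟶ P) {s : E.U P} (hs : Sus s)
    (hd : s ∈ E.deg P 3)
    (hz : E.map (Th.inj Fin.castSucc (Fin.castSucc_injective 2)) (E.map q s) = 0)
    (hx : ∀ y, E.map (Th.inj (n := 1) Fin.castSucc (Fin.castSucc_injective 2)) y = 0 →
      ∃ w, E.map q w = y) : ∃ n : ℤ, IsUnit n ∧ tp o (Fin 3) 2 = n • E.map q s := by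
  have key : ∀ {x y : E.U (LC.of (Th 1 (Fin 3)))}, x ∈ E.deg _ 3 → y ∈ E.deg _ 3 →
      ∀ a : E.A, x = a • y → ∃ n : ℤ, x = n • y := fun {x y} hx hy a h => by
    obtain ⟨n, hn⟩ := h0 (E.toA (E.proj (𝟙_ LC) 0 (E.ofA a))) (proj_mem _ _)
    refine ⟨n, ?_⟩
    rw [← proj_of_mem hx, h, proj_smul' (zero_add 3) a hy, hn, Int.cast_smul_eq_zsmul]
  obtain ⟨a, ha⟩ := tp_span o (Fintype.card_fin 3) (E.map q s)
  have h2 : ∑ i : Fin 2, a i.castSucc • tp o (Fin 2) i = 0 := by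
    rw [ha, Fin.sum_univ_castSucc, map_add, map_sum, MultTheory.map_smul, inj_tp,
      tp_zero o (by simp), smul_zero, add_zero] at hz
    rw [← hz]
    exact Finset.sum_congr rfl fun i _ => by rw [MultTheory.map_smul, inj_tp]; rfl
  rw [Fin.sum_univ_castSucc, Finset.sum_eq_zero fun i _ => by
    rw [tp_li o (Fintype.card_fin 2) _ h2 i, zero_smul], zero_add] at ha
  obtain ⟨m, hm⟩ := key (map_deg q hd) (tp_deg o 2) _ ha
  obtain ⟨w, hw⟩ := hx (tp o (Fin 3) 2) (by rw [inj_tp, tp_zero o (by simp)])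
  obtain ⟨t, rfl⟩ := hs.smul w
  obtain ⟨n, hn⟩ := key (tp_deg o 2) (map_deg q hd) t (by rw [← hw, MultTheory.map_smul])
  refine ⟨n, IsUnit.of_mul_eq_one m (sub_eq_zero.1 (h1 _ ?_)), hn⟩
  refine tp_li o (Fintype.card_fin 3) ![0, 0, ((n * m - 1 : ℤ) : E.A)] ?_ 2
  rw [Fin.sum_univ_three]
  simp only [Matrix.cons_val_zero, Matrix.cons_val_one, Matrix.cons_val, zero_smul, zero_add,
    Int.cast_smul_eq_zsmul]
  change (n * m - 1) • tp o (Fin 3) 2 = 0
  rw [sub_smul, one_smul, mul_smul, ← hm, ← hn, sub_self]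

end theory

section cat

open Vale.Agent.P251.Q Vale.Agent.P251.Q.MultTheory MonObj

variable {T : Type u} [Category.{v} T] [Preadditive T] [HasZeroObject T]
    [HasShift T ℤ] [∀ n : ℤ, (shiftFunctor T n).Additive] [Pretriangulated T]
    [MonoidalCategory T] [SymmetricCategory T] [TensorTriangulated T]
  {S : EvenSpheres T} {F : SpaceFunctor T} (e : F.S.obj CCF ≅ S.L)
  {K K' : T} [MonObj K] [IsCommMonObj K] [MonObj K'] [IsCommMonObj K'] {X Y : FCat} {k l q : ℤ}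

variable (K) in
/-- the map which represents the component of degree `k` of a class -/
def cl (k : ℤ) (X : FCat) : (thK e K).U X.obj →+ (F.S.obj X ⟶ K ⊗ S.S k) :=
  (hq K S k _).comp ((DFinsupp.evalAddMonoidHom k).comp
    (uev (M := RSys K S) (F := F) X.property))

theorem cl_apply (u : (thK e K).U X.obj) :
    cl e K k X u = hq K S k _ (uev (M := RSys K S) (F := F) X.property u k) := rfl

theorem cl_map (f : X ⟶ Y) (u : (thK e K).U Y.obj) :
    cl e K k X ((thK e K).map f.hom u) = F.S.map f ≫ cl e K k Y u := by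
  rw [cl_apply, cl_apply, ← hq_pull, ← MSys.tpull_apply]
  exact congrArg (fun t : (RSys K S).Tot _ => hq K S k _ (t k))
    (uev_umap X.property Y.property f.hom u)

theorem cl_app (g : K ⟶ K') [IsMonHom g] (u : (thK e K).U X.obj) :
    cl e K' k X ((thKHom e g).app _ u) = cl e K k X u ≫ g ▷ S.S k := by
  rw [cl_apply, cl_apply, ← hq_hmap]
  exact congrArg (hq K' S k _) (DirectSum.map_apply _ _ _)

theorem cl_of {u : (thK e K).U X.obj} {a : (RSys K S).H k (F.S.obj X)}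
    (h : (RSys K S).tof _ k a = uev (M := RSys K S) (F := F) X.property u) :
    cl e K k X u = hq K S k _ a := by
  rw [cl_apply, ← h, DirectSum.of_eq_same]

theorem cl_cross (h : k + l = q) {u : (thK e K).U X.obj} {w : (thK e K).U Y.obj}
    (hu : u ∈ (thK e K).deg X.obj k) (hw : w ∈ (thK e K).deg Y.obj l) :
    cl e K q (X ⊗ Y) ((thK e K).cross u w) = δ F.S X Y ≫ (cl e K k X u ⊗ₘ cl e K l Y w) ≫
      tensorμ _ _ _ _ ≫ (μ[K] ⊗ₘ (S.mu k l q h).hom) := by
  obtain ⟨a, ha⟩ := hu X.property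
  obtain ⟨b, hb⟩ := hw Y.property
  rw [cl_of e ha, cl_of e hb, ← hq_xprod, ← hq_pull]
  refine cl_of e (Eq.trans ?_ (uev_ucross X.property Y.property (X ⊗ Y).property u w).symm)
  rw [← ha, ← hb, MSys.tcross_eq h, MSys.tpull_of]

theorem cl_sg : cl e K 1 CCF (thK e K).sg =
    (e ≪≫ S.oneIso.symm).hom ≫ (λ_ _).inv ≫ η[K] ▷ S.S 1 :=
  cl_of e (a := MSys.cls (M := RSys K S) 0 (lineCls e (SeqMonoid.const K))) rfl

theorem cl_coef {a : (thK e K).A} (ha : a ∈ (thK e K).degA k) {x : S.S (-k) ⟶ K}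
    (hx : coefK e K a = HRing.of S K (-k) x) :
    cl e K k (𝟙_ FCat) a = Functor.OplaxMonoidal.η F.S ≫ (coev S k).hom ≫ x ▷ S.S k := by
  obtain ⟨b, hb⟩ := ha fc_unit
  have h1 : coefK e K a = HRing.of S K (-k)
      (itr S k K (hq K S k _ ((RSys K S).pull k (eps F) b))) := by
    refine (uH_apply a).trans ?_
    rw [← hb]
    exact (congrArg (totH K S) (MSys.tpull_of _ _ _)).trans (totH_of _ _)
  have h2 : x = _ := DirectSum.of_injective (β := S.Gr K) (-k) (hx.symm.trans h1)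
  have h3 := congrArg (tr S k) h2
  rw [tr_itr, hq_pull] at h3
  refine (cl_of e (X := 𝟙_ FCat) hb).trans ?_
  exact ((eps'_eps_assoc F _).symm.trans (congrArg (eps' F ≫ ·) h3.symm) :)

variable (k X) in
/-- `s` is represented by the unit -/
def Un (s : (thK e K).U X.obj) : Prop := s ∈ (thK e K).deg X.obj k ∧
  ∃ σ : F.S.obj X ≅ S.S k, cl e K k X s = σ.hom ≫ (λ_ _).inv ≫ η[K] ▷ S.S k

theorem un_sg : Un e (K := K) CCF 1 (thK e K).sg := ⟨(thK e K).sg_deg, _, cl_sg e⟩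

theorem cl_cross_un (h : k + l = q) {u : (thK e K).U X.obj} {w : (thK e K).U Y.obj}
    (hu : u ∈ (thK e K).deg X.obj k) (hw : w ∈ (thK e K).deg Y.obj l) {σ : F.S.obj Y ⟶ S.S l}
    (hσ : cl e K l Y w = σ ≫ (λ_ _).inv ≫ η[K] ▷ S.S l) :
    cl e K q (X ⊗ Y) ((thK e K).cross u w) = δ F.S X Y ≫ _ ◁ σ ≫ cl e K k X u ▷ S.S l ≫
      (α_ _ _ _).hom ≫ K ◁ (S.mu k l q h).hom := by
  rw [cl_cross e h hu hw, hσ, ← mul_sig_aux η[K] μ[K] (MonObj.mul_one K), ← id_tensorHom,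
    tensorHom_comp_tensorHom_assoc, Category.id_comp]

theorem Un.cross (h : k + l = q) {u : (thK e K).U X.obj} {w : (thK e K).U Y.obj}
    (hu : Un e X k u) (hw : Un e Y l w) : Un e (X ⊗ Y) q ((thK e K).cross u w) := by
  obtain ⟨h1, σ, h2⟩ := hu
  obtain ⟨h3, σ', h4⟩ := hw
  refine ⟨h ▸ (thK e K).cross_deg' X.property Y.property h1 h3,
    (Functor.Monoidal.μIso F.S X Y).symm ≪≫ (σ ⊗ᵢ σ') ≪≫ S.mu k l q h, ?_⟩
  rw [cl_cross_un e h h1 h3 h4, h2]
  simp only [comp_whiskerRight, Category.assoc, associator_naturality_left_assoc,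
    ← whisker_exchange]
  simp [tensorHom_def']

theorem Un.zsmul {u : (thK e K).U X.obj} (hu : Un e X k u) {n : ℤ} (hn : IsUnit n) :
    Un e X k (n • u) := by
  obtain ⟨h1, σ, h2⟩ := hu
  rcases Int.isUnit_iff.1 hn with rfl | rfl
  · exact ⟨by rwa [one_smul], σ, by rwa [one_smul]⟩
  · exact ⟨by rw [neg_smul, one_smul]; exact neg_mem h1, -σ, by
      rw [neg_smul, one_smul, map_neg, h2, Preadditive.neg_iso_hom, Preadditive.neg_comp]⟩

theorem Un.smul {w : ℤ} (hw : k + w = 0) (h : k + l = q) {s : (thK e K).U X.obj}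
    (hs : Un e X l s) : ∃ κ : F.S.obj X ⟶ S.S w ⊗ S.S q, IsIso κ ∧ ∀ a ∈ (thK e K).degA k,
      ∀ x : S.S w ⟶ K, coefK e K a = HRing.of S K w x → cl e K q X (a • s) = κ ≫ x ▷ S.S q := by
  obtain rfl : w = -k := by omega
  obtain ⟨h1, σ, h2⟩ := hs
  refine ⟨F.S.map (λ_ X).inv ≫ δ F.S _ X ≫ _ ◁ σ.hom ≫
    (Functor.OplaxMonoidal.η F.S ≫ (coev S k).hom) ▷ S.S l ≫ (α_ _ _ _).hom ≫
    _ ◁ (S.mu k l q h).hom, inferInstance, fun a ha x hx => ?_⟩
  refine (cl_map e (λ_ X).inv _).trans ?_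
  refine (congrArg (F.S.map (λ_ X).inv ≫ ·) (cl_cross_un e (X := 𝟙_ FCat) h ha h1 h2)).trans ?_
  rw [cl_coef e ha hx]
  simp only [comp_whiskerRight, Category.assoc, associator_naturality_left_assoc,
    ← whisker_exchange]

theorem map_zero_of {Z : FCat} {f : X ⟶ Y} {g : Y ⟶ Z} (h : F.S.map f ≫ F.S.map g = 0)
    (u : (thK e K).U Z.obj) : (thK e K).map f.hom ((thK e K).map g.hom u) = 0 := by
  refine uev_inj (M := RSys K S) (F := F) X.property
    ((uev_umap X.property Y.property f.hom _).trans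
      ((congrArg _ (uev_umap Y.property Z.property g.hom u)).trans ?_))
  refine (MSys.tpull_comp (F.S.map f) (F.S.map g) _).symm.trans ?_
  rw [h]
  exact DFinsupp.ext fun k => (MSys.tpull_apply _ _ _).trans (MSys.pull_zero _)

theorem exact_of {Z : FCat} {f : X ⟶ Y} {g : Y ⟶ Z} {d : F.S.obj Z ⟶ (F.S.obj X)⟦(1 : ℤ)⟧}
    (D : H.Dist (F.S.map f) (F.S.map g) d) (y : (thK e K).U Y.obj)
    (h : (thK e K).map f.hom y = 0) : ∃ w, (thK e K).map g.hom w = y := by
  obtain ⟨b, hb⟩ := MSys.texact₂ (M := RSys K S) _ D (uev Y.property y)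
    ((uev_umap X.property Y.property f.hom y).symm.trans (congrArg _ h))
  exact ⟨umk Z.property b, uev_inj (M := RSys K S) (F := F) Y.property
    ((uev_umap Y.property Z.property g.hom _).trans hb)⟩

variable (K) in
/-- the threefold suspension class -/
def s3 : (thK e K).U (LC.of ℂ ⊗ LC.of ℂ ⊗ LC.of ℂ) :=
  (thK e K).cross (thK e K).sg ((thK e K).cross (thK e K).sg (thK e K).sg)

theorem un_s3 : Un e (CCF ⊗ CCF ⊗ CCF) 3 (s3 e K) :=
  Un.cross e (X := CCF) (Y := CCF ⊗ CCF) (k := 1) (l := 2) (q := 3) (by norm_num) (un_sg e)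
    (Un.cross e (X := CCF) (Y := CCF) (k := 1) (l := 1) (q := 2) (by norm_num) (un_sg e) (un_sg e))

theorem app_s3 (g : K ⟶ K') [IsMonHom g] : (thKHom e g).app _ (s3 e K) = s3 e K' := by
  rw [s3, (thKHom e g).app_cross, (thKHom e g).app_cross, (thKHom e g).app_sg, s3]

end cat

section mu

open Vale.Agent.P251.Q Vale.Agent.P251.Q.MultTheory MonObj

variable {T : Type u} [Category.{v} T] [Preadditive T] [HasZeroObject T]
    [HasShift T ℤ] [∀ n : ℤ, (shiftFunctor T n).Additive] [Pretriangulated T] [IsTriangulated T]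
    [MonoidalCategory T] [SymmetricCategory T] [TensorTriangulated T] [MonoidalClosed T]
    [HasCoproducts.{0} T] [HasProducts.{0} T] [StableCat T]
  {F : SpaceFunctor T} {e : F.S.obj CCF ≅ (stdEven T).L} {D : MUData T}
  (o : Orientation (thK e D.R)) {N : T} [MonObj N] [IsCommMonObj N]

theorem sIso_c (h : D.ev 1 = amEv e D.R o 1) (a a' : D.R ⟶ N) [IsMonHom a] [IsMonHom a'] (n : ℕ) :
    (sIso D a a').c n = coefK e N ((CPSys.Coord.cmp (coordO ((thKHom e a).push o))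
      (coordO ((thKHom e a').push o)) (z_one_eq _ _)).c n) := by
  have h0 := thKHom_push_comp e _ _ _ (v0_pair a a') o
  have h1 := thKHom_push_comp e _ _ _ (v1_pair a a') o
  have h2 := congrArg (fun c => (c.g 1).c n)
    (LChain.univ_map_ev (oChain fun j : Fin (1 + 1) => amO e D.R o j))
  have h3 := congrArg (fun c => (c.g 1).c n)
    (oChain_map (thKHom e (pair a a')) fun j : Fin (1 + 1) => amO e D.R o j)
  simp only [LChain.map_g, InvSeries.c_map] at h2 h3
  rw [← h0, ← h1, sIso, MUData.strictIso, InvSeries.c_map, InvSeries.c_map, h]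
  exact ((congrArg (fun t => HRing.map (E := stdEven T) (pair a a') (coefK e _ t)) h2).trans
    (coefK_mapA e _ _).symm).trans (congrArg (coefK e N) h3)

theorem top_mu {q : ThF 1 (Fin 3) ⟶ CCF ⊗ CCF ⊗ CCF} {d} (C : H.Dist (F.S.map i2) (F.S.map q) d)
    (a : D.R ⟶ N) [IsMonHom a] : ∃ s, Un e (CCF ⊗ CCF ⊗ CCF) 3 s ∧
      tp ((thKHom e a).push o) (Fin 3) 2 = (thK e N).map q.hom s := by
  obtain ⟨J, i, j, hJ⟩ := distinguished_cocone_triangle (η[D.R] : 𝟙_ T ⟶ D.R)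
  have hc := (PiConn.of_dist F hJ ((D.conn J i j hJ).conn D.conn_unit
    fun Y k f => StableCat.compact k Y f)).isConnGr
  obtain ⟨n, h1, h2⟩ := top o (fun x hx => by
      obtain ⟨y, hy⟩ := coefK_deg e (add_zero 0) hx
      obtain ⟨n, hn⟩ := hc.deg_zero _ (hy ▸ of_mem_hgr neg_zero y)
      exact ⟨n, (coefK_bijective e D.R).1 (by rw [hn, map_intCast])⟩)
    (fun n hn => hc.inj n (by rw [← map_intCast (coefK e D.R), hn, map_zero]))
    (P := LC.of ℂ ⊗ LC.of ℂ ⊗ LC.of ℂ) q.hom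
    (s := s3 e D.R) (sus_sg.cross (sus_sg.cross sus_sg)) (un_s3 e).1
    (map_zero_of e C.zero₁₂ _) (exact_of e C)
  refine ⟨n • s3 e N, (un_s3 e).zsmul e h1, ?_⟩
  rw [← app_tp, h2, map_zsmul, map_zsmul, (thKHom e a).app_map, app_s3]

theorem line_ori {E : MultTheory.{v}} (o : Orientation E) :
    E.map (i1 ≫ i2).hom (o.tau 1 (Fin 3)) = E.sg := by
  change E.map ((lineTh ≫ Th.inj (fun _ : Unit => (0 : Fin 2))
    fun _ _ _ => Subsingleton.elim _ _) ≫ Th.inj Fin.castSucc (Fin.castSucc_injective 2)) _ = _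
  rw [MultTheory.map_comp, MultTheory.map_comp, tau_map, tau_map]
  exact o.tau_one _ fun c =>
    ⟨Th.mk 1 (fun _ => c) IsProj.one (Matrix.one_mulVec _), rfl, rfl, rfl⟩

theorem xcp_aux (h : D.ev 1 = amEv e D.R o 1) {q : B3 ⟶ CCF ⊗ CCF ⊗ CCF} {d}
    (C : H.Dist (F.S.map i2) (F.S.map q) d) (a : D.R ⟶ N) [IsMonHom a]
    (h1 : ∀ y : (stdEven T).S 1 ⟶ N, y = 0) :
    ∃ (x : F.S.obj B3 ⟶ F.S.obj CCF ⊗ N) (k : (stdEven T).S 2 ≅ F.S.obj (CCF ⊗ CCF)),
      F.S.map (i1 ≫ i2) ≫ x = (ρ_ _).inv ≫ _ ◁ η[N] ∧ ∀ (g : N ⟶ N) [IsMonHom g],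
        ∃ τ, x ≫ _ ◁ g = x + F.S.map q ≫ δ F.S CCF (CCF ⊗ CCF) ≫ _ ◁ τ ∧
          HRing.of _ N 2 (k.hom ≫ τ) = (sIso D a (a ≫ g)).c 2 := by
  let r : F.S.obj CCF ≅ (stdEven T).S 1 := e ≪≫ (stdEven T).oneIso.symm
  obtain ⟨s, hs, h3⟩ := top_mu o C a
  obtain ⟨κ, _, hκ⟩ := hs.smul e (k := -2) (w := 2) (q := 1) (by norm_num) (by norm_num)
  have : IsInv (F.S.obj CCF) := IsInv.of_iso e.symm
  obtain ⟨k, hk⟩ := (tensorLeft (F.S.obj CCF)).map_surjective
    (Functor.LaxMonoidal.μ F.S CCF (CCF ⊗ CCF) ≫ κ ≫ (β_ _ _).hom ≫ r.inv ▷ (stdEven T).S 2)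
  have : IsIso ((tensorLeft (F.S.obj CCF)).map k) := by rw [hk]; infer_instance
  have : IsIso k := isIso_of_reflects_iso _ (tensorLeft (F.S.obj CCF))
  have hk' : F.S.obj CCF ◁ k = _ := hk
  refine ⟨cl e N 1 B3 (((thKHom e a).push o).tau 1 (Fin 3)) ≫ (β_ _ _).hom ≫ r.inv ▷ N,
    (asIso k).symm, ?_, fun g _ => ?_⟩
  · rw [← Category.assoc, ← cl_map, line_ori, cl_sg]
    change (r.hom ≫ _) ≫ _ = _
    simp only [Category.assoc, BraidedCategory.braiding_naturality_left_assoc, whisker_exchange]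
    simp
  have h0 := tau_cmp ((thKHom e a).push o) ((thKHom e (a ≫ g)).push o) 3
  have hm := cmp_c_mem ((thKHom e a).push o) ((thKHom e (a ≫ g)).push o) (z_one_eq _ _)
  obtain ⟨y, hy⟩ := coefK_deg e (w := 1) (neg_add_cancel _) (hm 1)
  obtain ⟨x, hx⟩ := coefK_deg e (w := 2) (neg_add_cancel _) (hm 2)
  refine ⟨k ≫ x, ?_, by simpa using hx.symm.trans (sIso_c o h a (a ≫ g) 2).symm⟩
  have h4 := (coefK_bijective e N).1 (hy.trans (by
    rw [h1 y, map_zero]; exact map_zero (DirectSum.of ((stdEven T).Gr N) 1)))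
  have : (thK e N).Good (CCF ⊗ CCF ⊗ CCF : FCat).obj := ⟨(CCF ⊗ CCF ⊗ CCF : FCat).property⟩
  have h5 := mem_strict.1 (CPSys.Coord.cmp_mem_strict (coordO ((thKHom e a).push o))
    (coordO ((thKHom e (a ≫ g)).push o)) (z_one_eq _ _))
  rw [Fin.sum_univ_three, Fin.val_zero, Fin.val_one, Fin.val_two, h4, h5, zero_smul, add_zero,
    one_smul, h3, ← MultTheory.map_smul] at h0
  have h6 := congrArg (cl e N 1 B3) h0
  rw [map_add, cl_map, hκ _ (hm 2) x hx, ← thKHom_push_comp e a g _ rfl, Hom.push_tau,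
    cl_app] at h6
  have h7 := congrArg (· ≫ (β_ _ _).hom ≫ r.inv ▷ N) h6
  simp only [Category.assoc, Preadditive.add_comp,
    BraidedCategory.braiding_naturality_left_assoc, whisker_exchange] at h7
  rw [MonoidalCategory.whiskerLeft_comp, hk']
  simp only [Category.assoc, Functor.Monoidal.δ_μ_assoc]
  exact h7

end mu

end Xc

/-- **XCP** -/
theorem xcp : XCP := fun _ m c =>
  Xc.xcp_aux (D := m.M.data m.b) m.M.ori rfl c.D3 m.P.uE (m.A.zero 1 odd_one)

end Vale.Agent.P236Z.Q
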