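import Vale.Agent.P236Z.Q.Two
import Vale.Agent.P236Z.Q.Ald
import Vale.Agent.P236Z.Q.Cpg
import Vale.Agent.P236Z.Q.Xcp
import Vale.Agent.P236Z.Q.Nl
import Vale.Agent.P236Z.Q.Psi
import Vale.Agent.P236Z.Q.Psg
import Vale.Agent.P236Z.Q.Jam

/-!
# P236, block Q: the step from the subgroup of order three to the whole group
-/

namespace Vale.Agent.P236Z.Q

/-- (Q) -/
theorem stQ : Top.StQ := stQ_of jam (ald cpg xcp nl psi psg)

end Vale.Agent.P236Z.Q
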