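import Vale.Agent.P236Z.Q.Cir

/-!
# P236, block Q: divisibility by the Euler class; classes on the circle
-/

open CategoryTheory MonoidalCategory Limits Pretriangulated
open Functor.LaxMonoidal Functor.OplaxMonoidal
open Vale.Agent.P251 Vale.Agent.P251.T Vale.Agent.P251.G Vale.Agent.P251.M Vale.Agent.P251.S
  Vale.Agent.P251.I Vale.Agent.P236Z.Cat Vale.Agent.P236Z.Top

set_option linter.unusedSectionVars false

noncomputable section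

namespace Vale.Agent.P236Z.Q

theorem eq_zero_of_sk {T : TTC} {B Y : T.C} {n : ℤ} (hB : toSkeleton B = sk T n)
    (h : ∀ y : (𝟙_ T.C)⟦n⟧ ⟶ Y, y = 0) (y : B ⟶ Y) : y = 0 := by
  let e : B ≅ (𝟙_ T.C)⟦n⟧ := Skeleton.isoOfEq hB
  rw [← e.hom_inv_id_assoc y, h (e.inv ≫ y), comp_zero]

/-- The cells of the rotation sphere. -/
structure Rep (W : Tower) where
  /-- the circle -/
  P : W.T₂.C
  /-- the bottom cell -/
  e₀ : W.s₂.O ⟶ P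
  /-- the top cell -/
  e₁ : P ⟶ W.s₂.O⟦(1 : ℤ)⟧
  /-- the projection to the point -/
  p : P ⟶ 𝟙_ W.T₂.C
  /-- the boundary -/
  b : W.s₂.Lr ⟶ P⟦(1 : ℤ)⟧
  /-- the fundamental class -/
  r : (W.s₂.O⟦(1 : ℤ)⟧)⟦(1 : ℤ)⟧ ⟶ W.s₂.Lr
  D : H.Dist (𝟙 _ - (W.L₂.t.h W.s₂.O).hom) e₀ e₁
  Dp : H.Dist p W.s₂.ar b
  he : e₀ ≫ p = W.s₂.oe
  hr : r ≫ b ≫ e₁⟦(1 : ℤ)⟧' =
    ((∑ i ∈ Finset.range 3, Dt.pw (W.L₂.t.h W.s₂.O).hom i)⟦(1 : ℤ)⟧')⟦(1 : ℤ)⟧'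

variable {W : Tower}

theorem nonempty_rep (g : W.Geo) : Nonempty (Rep W) := by
  obtain ⟨⟨r, ⟨P, e₀, e₁, p, b, h1, h2, h3, h4⟩, -⟩, -⟩ := g.c2
  exact ⟨⟨P, e₀, e₁, p, b, r, h1, h2, h3, h4⟩⟩

namespace Rep

variable (R : Rep W)

/-- the circle -/
abbrev cir : Cir W.s₂ where
  B₀ := 𝟙_ _
  B₁ := (𝟙_ _)⟦(1 : ℤ)⟧
  F₀ := W.s₂.O
  F₁ := W.s₂.O⟦(1 : ℤ)⟧
  P := R.P
  η₀ := W.s₂.un _
  η₁ := (W.s₂.adj.unit.app _)⟦(1 : ℤ)⟧' ≫ (W.s₂.U.F.commShiftIso (1 : ℤ)).inv.app _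
  fr₀ := free_un _
  fr₁ := free_shift _
  g₀ := (W.L₂.t.h W.s₂.O).hom
  g₁ := (W.L₂.t.h W.s₂.O).hom⟦(1 : ℤ)⟧'
  hg₀ := rfl
  hg₁ := congrArg W.s₂.U.F.map (h_shift W.L₂ _ 1).symm
  j := Iso.refl _
  hj := (Category.id_comp _).trans (Category.comp_id _).symm
  e₀ := R.e₀
  e₁ := R.e₁
  D := by
    rw [Iso.refl_hom, Category.comp_id]
    exact R.D

theorem dm : R.cir.Dm 0 := ⟨Skeleton.one_eq.symm.trans (sk_zero _).symm, by rw [zero_add]; rfl⟩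

theorem bot_p : R.cir.bot R.p = ε W.s₂.U.F := by
  change W.s₂.un _ ≫ W.s₂.U.F.map (R.e₀ ≫ R.p) = _
  rw [R.he]
  exact (W.s₂.adj.homEquiv _ _).apply_symm_apply _

theorem top_eq {Z : W.T₂.C} (ξ : W.s₂.O⟦(1 : ℤ)⟧ ⟶ Z) : R.cir.top ξ = Mdl.flat1 ξ :=
  Category.assoc _ _ _

theorem norm_zero {A Z : W.T₂.C} (θ : 𝟙_ _ ⊗ A ⟶ Z) (ξ : W.s₂.O⟦(1 : ℤ)⟧ ⊗ A ⟶ Z)
    (h : R.p ▷ A ≫ θ = R.e₁ ▷ A ≫ ξ) :
    ξ + R.cir.g₁ ▷ A ≫ ξ + R.cir.g₁ ▷ A ≫ R.cir.g₁ ▷ A ≫ ξ = 0 := by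
  have nat : ∀ {X Y : W.T₂.C} (f : X ⟶ Y), f⟦(1 : ℤ)⟧' ▷ A ≫
      ((tensorRight A).commShiftIso (1 : ℤ)).hom.app Y =
        ((tensorRight A).commShiftIso (1 : ℤ)).hom.app X ≫ (f ▷ A)⟦(1 : ℤ)⟧' :=
    fun f => ((tensorRight A).commShiftIso (1 : ℤ)).hom.naturality f
  have h1 : (R.b ≫ R.e₁⟦(1 : ℤ)⟧') ▷ A ≫ ((tensorRight A).commShiftIso (1 : ℤ)).hom.app _ ≫
      ξ⟦(1 : ℤ)⟧' = 0 := by
    rw [comp_whiskerRight, Category.assoc, reassoc_of% nat, ← Functor.map_comp, ← h,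
      Functor.map_comp, ← reassoc_of% nat, ← comp_whiskerRight_assoc, R.Dp.zero₃₁,
      MonoidalPreadditive.zero_whiskerRight, zero_comp]
  have h2 := congrArg (R.r ▷ A ≫ ·) h1
  rw [← comp_whiskerRight_assoc, R.hr, comp_zero, reassoc_of% nat, ← Functor.map_comp,
    ← comp_zero (f := ((tensorRight A).commShiftIso (1 : ℤ)).hom.app _), cancel_epi,
    ← (shiftFunctor W.T₂.C (1 : ℤ)).map_zero] at h2
  have h3 := (shiftFunctor W.T₂.C (1 : ℤ)).map_injective h2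
  rw [Finset.sum_range_succ, Finset.sum_range_succ, Finset.sum_range_one, Functor.map_add,
    Functor.map_add, MonoidalPreadditive.add_whiskerRight, MonoidalPreadditive.add_whiskerRight,
    Preadditive.add_comp, Preadditive.add_comp] at h3
  simp only [Dt.pw, Category.comp_id, Functor.map_comp, CategoryTheory.Functor.map_id,
    id_whiskerRight, comp_whiskerRight, Category.assoc] at h3
  exact (congrArg₂ (· + ·) (congrArg₂ (· + ·) (Category.id_comp ξ).symm rfl) rfl).trans h3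

variable {m : Mdl W}

include R in
/-- (Q1) in dimension `-2` every class is divisible by the Euler class -/
theorem div (r : m.Rows) {A : W.T₂.C} (hA : Sp W.s₂ A (-2)) (θ : A ⟶ m.X) :
    ∃ y : W.s₂.Lr ⊗ A ⟶ m.X, (λ_ A).inv ≫ W.s₂.ar ▷ A ≫ y = θ := by
  have hd := (R.dm).tensor hA (add_zero _)
  obtain ⟨ξ, hξ⟩ := (R.cir.tensor A hA.2).of_bot_zero (R.p ▷ A ≫ (λ_ A).hom ≫ θ)
    (eq_zero_of_sk hd.1 r.r1 _)
  have hN := congrArg (R.cir.tensor A hA.2).top (R.norm_zero _ ξ hξ)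
  have hg : ∀ x, (R.cir.tensor A hA.2).top (R.cir.g₁ ▷ A ≫ x) = _ :=
    (R.cir.tensor A hA.2).top_g (Z := m.X)
  rw [Cir.top_add, Cir.top_add, hg, hg, hg, Cir.top, Cir.top, Functor.map_zero, comp_zero,
    ← Cir.top] at hN
  let e : (R.cir.tensor A hA.2).B₁ ≅ (𝟙_ W.T₁.C)⟦(-1 : ℤ)⟧ := Skeleton.isoOfEq hd.2
  obtain ⟨z, hz⟩ := r.r2 (e.inv ≫ (R.cir.tensor A hA.2).top ξ) (by
    rw [← comp_zero (f := e.inv), ← hN]
    simp only [Preadditive.comp_add, Category.assoc])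
  have h0 := ((R.cir.tensor A hA.2).e₁_zero_iff ξ).2 ⟨e.hom ≫ z, by
    rw [Category.assoc, ← Preadditive.comp_sub, ← hz, Iso.hom_inv_id_assoc]⟩
  obtain ⟨d, D⟩ := Tr.dist_tensR R.Dp A
  obtain ⟨y, hy⟩ := D.desc₂ _ (hξ.trans h0)
  exact ⟨y, by rw [hy, Iso.inv_hom_id_assoc]⟩

variable (m) in
/-- the unit on the circle -/
def one : R.P ⟶ m.Z (0 + 22) := R.p ≫ m.Y.one ≫ m.st 22

theorem bot_one : R.cir.bot (R.one m) = m.one₁ ≫ W.s₂.U.F.map (m.st 22) := by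
  rw [one, Cir.bot_comp, bot_p, Functor.map_comp, Mdl.one₁, Category.assoc]

theorem mul_one (r : m.Rows) (w : R.P ⟶ m.Z (0 + 22)) (c : ℤ)
    (h : R.cir.bot w = c • (m.one₁ ≫ W.s₂.U.F.map (m.st 22))) :
    ∃ c' : ℤ, w = (c + 3 * c') • R.one m := by
  obtain ⟨ξ, h3, hξ⟩ := r.r4 R.P R.e₀ R.e₁ R.p R.D R.he
  obtain ⟨ξ', hξ'⟩ := R.cir.of_bot_zero (w - c • R.one m) (by
    rw [Cir.bot_sub, Cir.bot_zsmul, bot_one, h, sub_self])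
  obtain ⟨c', hc'⟩ := hξ (R.cir.top ξ')
  rw [← R.top_eq, ← Cir.top_zsmul] at hc'
  refine ⟨c', ?_⟩
  rw [R.cir.top_inj hc', Preadditive.comp_zsmul, sub_eq_iff_eq_add'] at hξ'
  rw [hξ', add_zsmul, mul_comm, mul_zsmul]
  exact congrArg (fun x => c • R.one m + c' • x) h3.symm

/-- (C1) classes on the circle are multiples of the unit -/
theorem cls_X (r : m.Rows) (w : R.P ⟶ m.X) :
    ∃ c : ℤ, w ≫ m.st 22 = c • R.one m ∧ (m.IsU₁ (R.cir.bot w) → ¬ 3 ∣ c) := by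
  obtain ⟨c, h1, h2⟩ := r.r3.2 (R.cir.bot w)
  obtain ⟨c', h⟩ := R.mul_one r (w ≫ m.st 22) c ((R.cir.bot_comp _ _).trans h1)
  exact ⟨_, h, fun hu hd => h2 hu ((Int.dvd_add_left (Dvd.intro _ rfl)).1 hd)⟩

theorem cls_Z (r : m.Rows) (w : R.P ⟶ m.Z (0 + 6)) :
    ∃ c : ℤ, w ≫ m.up (0 + 6) 16 = c • R.one m := by
  obtain ⟨c, h1⟩ := r.r3b (R.cir.bot w)
  rw [m.st_up_22] at h1
  obtain ⟨c', h⟩ := R.mul_one r (w ≫ m.up (0 + 6) 16) c ((R.cir.bot_comp _ _).trans h1)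
  exact ⟨_, h⟩

end Rep

end Vale.Agent.P236Z.Q
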