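import Vale.Agent.P236Z.Q.One
import Vale.Agent.P251.M.PiZero
import Vale.Agent.P251.M.SpaceCells

/-!
# P236, block Q: auxiliary lemmas on invertible objects and bottom cells
-/

open CategoryTheory MonoidalCategory Limits Pretriangulated
open Functor.LaxMonoidal Functor.OplaxMonoidal
open Vale.Agent.P251 Vale.Agent.P251.T Vale.Agent.P251.G Vale.Agent.P251.M Vale.Agent.P251.S
  Vale.Agent.P251.I Vale.Agent.P236Z.Cat Vale.Agent.P236Z.Top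

set_option linter.unusedSectionVars false

noncomputable section

namespace Vale.Agent.P236Z.Q

theorem exists_div {T : TTC} {M : T.C} (h : IsUnit (toSkeleton M)) (Y : T.C) :
    ∃ B : T.C, Nonempty (M ⊗ B ≅ Y) := by
  obtain ⟨x, hx⟩ := h.exists_right_inv
  refine ⟨(fromSkeleton T.C).obj (x * toSkeleton Y), ⟨Skeleton.isoOfEq ?_⟩⟩
  rw [Skeleton.toSkeleton_tensorObj, toSkeleton_fromSkeleton_obj, ← mul_assoc, hx, one_mul]

theorem end_eq_act {T : TTC} {N : T.C} [IsInv N] (k : N ⟶ N) : ∃ g, k = act g N := by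
  obtain ⟨g, hg⟩ := whiskerLeft_surj N ((ρ_ N).hom ≫ k ≫ (ρ_ N).inv)
  refine ⟨g, ?_⟩
  rw [← cancel_epi (ρ_ N).hom, ← act_naturality, ← whiskerLeft_act, act_unit, hg, Category.assoc,
    Category.assoc, Iso.inv_hom_id, Category.comp_id]

theorem swap_zero {T : TTC} {M B Z : T.C} [IsInv M] [IsInv B] (x : 𝟙_ _ ⟶ M) (f : M ⊗ B ⟶ Z)
    (h : f ≫ (λ_ Z).inv ≫ x ▷ Z = 0) : x ▷ B ≫ f = 0 := by
  obtain ⟨g, hg⟩ := end_eq_act (swp M M B).hom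
  have h1 : M ◁ (((λ_ B).inv ≫ x ▷ B) ≫ f) = M ◁ 0 := by
    rw [MonoidalCategory.whiskerLeft_comp, ← swp_a, hg, Category.assoc, Category.assoc,
      act_naturality, ← whisker_exchange_assoc, ← leftUnitor_inv_naturality_assoc,
      reassoc_of% h, zero_comp, MonoidalPreadditive.whiskerLeft_zero]
  have h2 := whiskerLeft_inj M h1
  rw [← cancel_epi (λ_ B).inv, comp_zero, ← h2, Category.assoc]

theorem isIso_tri {C : Type 1} [Category.{0} C] {S Y Y' S₁ S' : C} (σ : S ⟶ Y) (π : Y ⟶ S₁)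
    [IsIso (σ ≫ π)] (Φ : Y ≅ Y') (π' : Y' ⟶ S') (σ' : S' ⟶ Y') (h : σ' ≫ π' = 𝟙 _)
    (i : ∀ f g : S' ⟶ Y, f ≫ π = g ≫ π → f = g) (i' : ∀ f g : S ⟶ Y', f ≫ π' = g ≫ π' → f = g) :
    IsIso (σ ≫ Φ.hom ≫ π') := by
  have h1 : ((σ' ≫ Φ.inv ≫ π) ≫ inv (σ ≫ π)) ≫ σ = σ' ≫ Φ.inv := i _ _ (by
    rw [Category.assoc, Category.assoc, IsIso.inv_hom_id, Category.comp_id, Category.assoc])
  generalize (σ' ≫ Φ.inv ≫ π) ≫ inv (σ ≫ π) = t at h1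
  have h2 : t ≫ σ ≫ Φ.hom ≫ π' = 𝟙 _ := by rw [reassoc_of% h1, Iso.inv_hom_id_assoc, h]
  refine ⟨t, ?_, h2⟩
  have h3 : ((σ ≫ Φ.hom ≫ π') ≫ t) ≫ σ ≫ Φ.hom = σ ≫ Φ.hom := i' _ _ (by
    simp only [Category.assoc, h2, Category.comp_id])
  rw [← Category.assoc, cancel_mono] at h3
  rw [← cancel_mono (σ ≫ π), ← Category.assoc, h3, Category.id_comp]

variable {W : Tower}

theorem sph_zero {S Y : W.T₀.C} {n : ℤ} (hS : toSkeleton S = sk W.T₀ 0)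
    (hY : toSkeleton Y = sk W.T₀ n) (hn : 0 < n) (f : S ⟶ Y) : f = 0 := by
  let e : (𝟙_ W.T₀.C)⟦n⟧ ≅ Y := Skeleton.isoOfEq hY.symm
  exact eq_zero_of_sk hS (((unit_conn W.F).shift n n (zero_add n)).of_iso e 0 hn) f

theorem sk_U₁ {X : W.T₁.C} {n : ℤ} (h : toSkeleton X = sk W.T₁ n) :
    toSkeleton (W.s₁.U.F.obj X) = sk W.T₀ n :=
  (congr_toSkeleton_of_iso (W.s₁.U.F.mapIso (Skeleton.isoOfEq h))).trans (sk_exF _ n)

theorem split {C M : W.T₂.C} {x : 𝟙_ _ ⟶ M} {d : M ⟶ C} {w : C ⟶ (𝟙_ _)⟦(1 : ℤ)⟧}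
    (D : H.Dist x d w) (hM : Sp W.s₂ M 6) {B : W.T₂.C} (hB : Sp W.s₂ B (-1)) {S : W.T₀.C}
    (hS : toSkeleton S = sk W.T₀ 0) : Function.Bijective
      fun f : S ⟶ _ => f ≫ W.s₁.U.F.map (W.s₂.U.F.map (w ▷ B)) := by
  obtain ⟨e, D₁⟩ := Tr.dist_tensR D.rot B
  have D₂ : H.Dist (W.s₂.U.F.map (d ▷ B)) (W.s₂.U.F.map (w ▷ B)) _ :=
    W.s₂.U.F.map_distinguished _ D₁
  have D₃ : H.Dist (W.s₁.U.F.map (W.s₂.U.F.map (d ▷ B))) (W.s₁.U.F.map (W.s₂.U.F.map (w ▷ B))) _ :=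
    W.s₁.U.F.map_distinguished _ D₂
  have h5 := sk_U₁ (hM.tensor hB (l := 5) (by norm_num)).1
  refine ⟨fun f g h => ?_, fun y => D₃.lift₃ y (sph_zero (n := 6) hS ?_ (by norm_num) _)⟩
  · obtain ⟨b, hb⟩ := D₃.lift₂ (f - g) (by rw [Preadditive.sub_comp, sub_eq_zero]; exact h)
    rw [← sub_eq_zero, ← hb, sph_zero hS h5 (by norm_num) b, zero_comp]
  · rw [sk_shift, h5]
    exact sk_add _ 1 5

/-- (TRI) an isomorphism of the cones preserves the bottom cells -/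
theorem tri {C M : W.T₂.C} {x : 𝟙_ _ ⟶ M} {d : M ⟶ C} {w : C ⟶ (𝟙_ _)⟦(1 : ℤ)⟧}
    (D : H.Dist x d w) (hM : Sp W.s₂ M 6) {B B' : W.T₂.C} (hB : Sp W.s₂ B (-1))
    (hB' : Sp W.s₂ B' (-1)) (Φ : C ⊗ B ≅ C ⊗ B') {S : W.T₁.C} (σ : S ⟶ W.s₂.U.F.obj (C ⊗ B))
    (h : IsIso (σ ≫ W.s₂.U.F.map (w ▷ B))) : IsIso (σ ≫ W.s₂.U.F.map (Φ.hom ≫ w ▷ B')) := by
  have h0 := sk_U₁ ((sp_sph 1).tensor hB (l := 0) (by norm_num)).1
  have h0' := sk_U₁ ((sp_sph 1).tensor hB' (l := 0) (by norm_num)).1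
  have h1 : IsIso (W.s₁.U.F.map σ ≫ W.s₁.U.F.map (W.s₂.U.F.map (w ▷ B))) := by
    rw [← Functor.map_comp]
    infer_instance
  have hS := (congr_toSkeleton_of_iso
    (asIso (W.s₁.U.F.map σ ≫ W.s₁.U.F.map (W.s₂.U.F.map (w ▷ B))))).trans h0
  obtain ⟨σ', hσ'⟩ := (split D hM hB' h0').2 (𝟙 _)
  have h2 := isIso_tri (W.s₁.U.F.map σ) _ (W.s₁.U.F.mapIso (W.s₂.U.F.mapIso Φ)) _ σ' hσ'
    (fun _ _ e => (split D hM hB h0').1 e) (fun _ _ e => (split D hM hB' hS).1 e)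
  have h3 : IsIso (W.s₁.U.F.map (σ ≫ W.s₂.U.F.map (Φ.hom ≫ w ▷ B'))) := by
    rw [Functor.map_comp, Functor.map_comp, Functor.map_comp]
    exact h2
  exact W.s₁.reflIso _

theorem james {G : Type 1} [CommMonoid G] {c l σ a b d : G} (hl : IsUnit l) (hσ : IsUnit σ) {k : ℕ}
    (h : c * l ^ 3 = c * (σ * σ) ^ 3) (hb : l ^ 2 * b = σ ^ 3) (hd : σ * d = l * a)
    (ha : a * l ^ (3 * k) * (σ * σ) = (σ * σ) ^ (3 * k)) : c * b = c * d := by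
  have h1 : ∀ n : ℕ, c * l ^ (3 * n) = c * (σ * σ) ^ (3 * n) := fun n => by
    induction n with
    | zero => simp
    | succ n ih => rw [mul_add, mul_one, pow_add, pow_add, ← mul_assoc, ih, mul_right_comm, h,
        mul_right_comm, mul_assoc]
  have h2 : c * (a * (σ * σ)) = c := ((hσ.mul hσ).pow (3 * k)).mul_right_cancel (by
    calc c * (a * (σ * σ)) * (σ * σ) ^ (3 * k) = c * (σ * σ) ^ (3 * k) * (a * (σ * σ)) := by ac_rfl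
      _ = c * (a * l ^ (3 * k) * (σ * σ)) := by rw [← h1]; ac_rfl
      _ = _ := by rw [ha])
  refine ((hl.pow 2).mul (hσ.pow 3)).mul_right_cancel ?_
  calc c * b * (l ^ 2 * σ ^ 3) = c * (l ^ 2 * b) * σ ^ 3 := by ac_rfl
    _ = c * (σ * σ) ^ 3 := by rw [hb, mul_pow, mul_assoc]
    _ = c * (a * (σ * σ)) * l ^ 3 := by rw [h2, h]
    _ = c * (l * a) * (σ * σ) * l ^ 2 := by rw [pow_succ l 2]; ac_rfl
    _ = _ := by rw [← hd, pow_three σ]; ac_rfl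

/-- the suspended circle is the cone of the Euler class -/
theorem Rep.susp (R : Rep W) : ∃ (c : Cir W.s₂) (b : W.s₂.Lr ⟶ c.P)
    (q : c.P ⟶ (𝟙_ _)⟦(1 : ℤ)⟧), c.Dm 1 ∧ H.Dist W.s₂.ar b q ∧ IsIso (c.bot q) := by
  refine ⟨R.cir.tensor _ (sp_sph 1).2, R.b ≫ (tensorSph 1 R.P).inv,
    (tensorSph 1 R.P).hom ≫ (-R.p⟦(1 : ℤ)⟧'), R.dm.tensor (sp_sph 1) (add_zero _),
    R.Dp.rot.of_iso₃ (tensorSph 1 R.P).hom (by rw [Category.assoc, Iso.inv_hom_id,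
      Category.comp_id]) rfl, ?_⟩
  rw [Preadditive.comp_neg, ← tensorSph_naturality, ← Preadditive.comp_neg, Cir.bot_comp,
    R.cir.bot_tensor _ _ R.p, R.bot_p]
  have : IsIso (-(tensorSph 1 (𝟙_ W.T₂.C)).hom) := ⟨-(tensorSph 1 (𝟙_ W.T₂.C)).inv, by simp, by simp⟩
  infer_instance

end Vale.Agent.P236Z.Q
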