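import Vale.Agent.P236Z.Q.Key
import Vale.Agent.P236Z.Q.Tri

/-!
# P236, block Q: the quotient is not a unit
-/

open CategoryTheory MonoidalCategory Limits Pretriangulated
open Functor.LaxMonoidal Functor.OplaxMonoidal
open Vale.Agent.P251 Vale.Agent.P251.T Vale.Agent.P251.G Vale.Agent.P251.M Vale.Agent.P251.S
  Vale.Agent.P251.I Vale.Agent.P236Z.Cat Vale.Agent.P236Z.Top

set_option linter.unusedSectionVars false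

noncomputable section

namespace Vale.Agent.P236Z.Q

variable {W : Tower} {m : Mdl W}

variable (W) in
/-- multiplication by the Euler class -/
def aL (k : ℕ) : Pw W.s₂.Lr k ⟶ Pw W.s₂.Lr (k + 1) := (λ_ _).inv ≫ W.s₂.ar ▷ Pw W.s₂.Lr k

theorem pa_two : pa W.s₂.ar 2 = aL W 0 ≫ aL W 1 :=
  congrArg (· ≫ aL W 1) (Category.id_comp (aL W 0))

theorem pa_three : pa W.s₂.ar 3 = aL W 0 ≫ aL W 1 ≫ aL W 2 :=
  (congrArg (· ≫ aL W 2) pa_two).trans (Category.assoc _ _ _)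

theorem aL_div {P B Z : W.T₂.C} {b : W.s₂.Lr ⟶ P} {q : P ⟶ (𝟙_ _)⟦(1 : ℤ)⟧}
    (D : H.Dist W.s₂.ar b q) (k : ℕ) (z : Pw W.s₂.Lr (k + 1) ⊗ B ⟶ Z) (h : aL W k ▷ B ≫ z = 0) :
    ∃ y : (P ⊗ Pw W.s₂.Lr k) ⊗ B ⟶ Z, b ▷ Pw W.s₂.Lr k ▷ B ≫ y = z := by
  obtain ⟨d₁, D₁⟩ := Tr.dist_tensR D (Pw W.s₂.Lr k)
  obtain ⟨d₂, D₂⟩ := Tr.dist_tensR D₁ B
  refine D₂.desc₂ z ((cancel_epi ((λ_ (Pw W.s₂.Lr k)).inv ▷ B)).1 ?_)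
  exact (comp_whiskerRight_assoc _ _ _ _).symm.trans (h.trans comp_zero.symm)

theorem whisk3 {C : Type 1} [Category.{0} C] [MonoidalCategory C] {X Y Z Z' : C} (f : X ⟶ Y)
    (g : Y ⟶ Z) (h : Z ⟶ Z') (B : C) : ((f ≫ g) ≫ h) ▷ B = f ▷ B ≫ g ▷ B ≫ h ▷ B := by
  rw [comp_whiskerRight, comp_whiskerRight, Category.assoc]

theorem p_aL (R : Rep W) (k : ℕ) : (R.p ▷ Pw W.s₂.Lr k ≫ (λ_ _).hom) ≫ aL W k = 0 := by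
  have h : (R.p ▷ Pw W.s₂.Lr k ≫ (λ_ _).hom) ≫ (λ_ _).inv ≫ W.s₂.ar ▷ Pw W.s₂.Lr k = 0 := by
    rw [Category.assoc, Iso.hom_inv_id_assoc, ← comp_whiskerRight, R.Dp.zero₁₂,
      MonoidalPreadditive.zero_whiskerRight]
  exact h

theorem chase {C : Type 1} [Category.{0} C] [Preadditive C] {P Q V₁ V₂ V₃ Y X Z₆ Z : C}
    (Θ : P ≅ Q) {b : V₁ ⟶ Q} {y : Q ⟶ Z₆} {up : Z₆ ⟶ Z} {st : X ⟶ Z} {β : V₂ ⟶ Z₆} {a₁ : V₁ ⟶ V₂}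
    {a₂ : V₂ ⟶ V₃} {n : Q ⟶ Y} {d : V₃ ⟶ Y} {u : Y ⟶ X} {e : P ⟶ Z} {cu cy : ℤ}
    (h1 : b ≫ y = a₁ ≫ β) (h2 : b ≫ n = a₁ ≫ a₂ ≫ d) (hu : (Θ.hom ≫ n ≫ u) ≫ st = cu • e)
    (hy : (Θ.hom ≫ y) ≫ up = cy • e) : a₁ ≫ (cu • (β ≫ up) - cy • (a₂ ≫ d ≫ u ≫ st)) = 0 := by
  have h4 : cu • (y ≫ up) = cy • (n ≫ u ≫ st) := by
    rw [← cancel_epi Θ.hom, Preadditive.comp_zsmul, Preadditive.comp_zsmul, ← Category.assoc, hy,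
      smul_comm, ← hu, Category.assoc, Category.assoc]
  rw [Preadditive.comp_sub, Preadditive.comp_zsmul, Preadditive.comp_zsmul, ← reassoc_of% h1,
    ← reassoc_of% h2, ← Preadditive.comp_zsmul, h4, Preadditive.comp_zsmul, sub_self]

/-- the periodicity isomorphism -/
theorem exists_per (m : Mdl W) (g : W.Geo) {C A B B' : W.T₂.C} {k : ℕ}
    (h : C ⊗ Pw W.s₂.Lr 3 ≅ C ⊗ Pw (W.L₂.tv.F.obj (W.F.S.obj CCF)) 3)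
    (hA : A ⊗ Pw W.s₂.Lr (3 * k) ≅ (𝟙_ W.T₂.C)⟦2 * ((3 * k : ℕ) : ℤ) - 2⟧)
    (hB : Pw W.s₂.Lr 2 ⊗ B ≅ (𝟙_ W.T₂.C)⟦(3 : ℤ)⟧)
    (hB' : (𝟙_ W.T₂.C)⟦(1 : ℤ)⟧ ⊗ B' ≅ W.s₂.Lr ⊗ A) : Nonempty (C ⊗ B ≅ C ⊗ B') := by
  have h2 : toSkeleton (W.L₂.tv.F.obj (W.F.S.obj CCF)) = sk W.T₂ 1 * sk W.T₂ 1 := by
    refine (congr_toSkeleton_of_iso (W.L₂.tv.F.mapIso m.e ≪≫
      (Functor.Monoidal.μIso W.L₂.tv.F _ _).symm)).trans ?_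
    rw [Skeleton.toSkeleton_tensorObj, sk_exF]
  have e1 := congr_toSkeleton_of_iso h
  have e2 := congr_toSkeleton_of_iso hA
  have e3 := congr_toSkeleton_of_iso hB
  have e4 := congr_toSkeleton_of_iso hB'
  rw [Skeleton.toSkeleton_tensorObj, Skeleton.toSkeleton_tensorObj, sk_Pw, sk_Pw, h2] at e1
  rw [Skeleton.toSkeleton_tensorObj, sk_Pw] at e2 e3
  rw [Skeleton.toSkeleton_tensorObj, Skeleton.toSkeleton_tensorObj] at e4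
  rw [← toSkeleton_eq_toSkeleton_iff, Skeleton.toSkeleton_tensorObj, Skeleton.toSkeleton_tensorObj]
  refine james (k := k) (sp_Lr g.c2).isUnit (sk_unit _ 1) e1 (e3.trans (sk_pow _ 3).symm) e4 ?_
  rw [e2, ← pow_two, ← pow_mul, sk_pow, sk_pow]
  refine (sk_add _ _ _).trans (congrArg _ ?_)
  push_cast
  ring

/-- (Q2) -/
theorem not_unit (jam : JAM) (g : W.Geo) (r : m.Rows) (a : AlD m) {A : W.T₂.C} {k : ℕ}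
    (hA : A ⊗ Pw W.s₂.Lr (3 * k) ≅ (𝟙_ W.T₂.C)⟦2 * ((3 * k : ℕ) : ℤ) - 2⟧)
    (y₀ : W.s₂.Lr ⊗ A ⟶ m.X) : ¬ m.IsU₂ y₀ := by
  intro hy
  obtain ⟨R⟩ := nonempty_rep g
  have hL := sp_Lr g.c2
  have hA' : Sp W.s₂ A (-2) := ((sp_sph _).iso hA).cancel (hL.pw _) (by ring)
  obtain ⟨B, ⟨ν⟩⟩ := exists_div (hL.pw 2).isUnit a.A
  obtain ⟨B', ⟨ν'⟩⟩ := exists_div (sk_unit W.T₂ 1) (W.s₂.Lr ⊗ A)
  have hB : Sp W.s₂ B (-1) := (a.sp.iso (β_ _ _ ≪≫ ν)).cancel (hL.pw 2) (by norm_num)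
  have hB' : Sp W.s₂ B' (-1) :=
    ((hL.tensor hA' (l := 0) (by norm_num)).iso (β_ _ _ ≪≫ ν')).cancel (sp_sph 1) (by norm_num)
  obtain ⟨C, d, w, DC, ⟨J⟩⟩ := jam W
  obtain ⟨Φ⟩ := exists_per m g J hA (ν ≪≫ a.sph.some) ν'
  obtain ⟨c, b, q, hc, D, hq⟩ := R.susp
  have := isInv_of_unit hB.isUnit
  have := isInv_of_unit (hL.pw 2).isUnit
  -- the class of stem three
  have h1 : aL W 0 ▷ B ≫ aL W 1 ▷ B ≫ ν.hom ≫ a.α ≫ m.Y.one ≫ m.st 6 = 0 := by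
    rw [← comp_whiskerRight_assoc, ← pa_two]
    refine swap_zero _ _ ?_
    rw [Category.assoc, Category.assoc, ← comp_zero (f := ν.hom), ← a.two,
      leftUnitor_inv_naturality_assoc, tensorHom_def']
  obtain ⟨y₁, hy₁⟩ := aL_div D 0 _ h1
  -- the unit
  have D₀ : H.Dist (W.s₂.ar ▷ 𝟙_ _) (b ▷ 𝟙_ _) (q ▷ 𝟙_ _ ≫
    ((tensorRight (𝟙_ W.T₂.C)).commShiftIso (1 : ℤ)).hom.app _) := dist_whiskerRight _ D
  obtain ⟨n, hn1, hn2⟩ := D₀.map₃ DC (λ_ _).hom (aL W 1 ≫ aL W 2) (by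
    rw [pa_three, aL.eq_1 W 0]
    exact ((λ_ (𝟙_ W.T₂.C)).hom_inv_id_assoc _).symm.trans
      (congrArg ((λ_ (𝟙_ W.T₂.C)).hom ≫ ·) (Category.assoc _ _ _).symm))
  have hc₂ := (hc.tensor sp_unit (zero_add _)).tensor hB (l := 0) (by norm_num)
  obtain ⟨Θ, hΘ⟩ := R.cir.triv _ (Skeleton.isoOfEq (R.dm.1.trans hc₂.1.symm))
  have hu : m.IsU₁ (R.cir.bot (Θ.hom ≫ n ▷ B ≫ (Φ.hom ≫ w ▷ B') ≫ ν'.hom ≫ y₀)) := by
    have h2 : IsIso (((c.tensor _ sp_unit.2).tensor B hB.2).bot (n ▷ B) ≫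
        W.s₂.U.F.map (w ▷ B)) := by
      rw [← Cir.bot_comp, ← comp_whiskerRight, ← hn2, (c.tensor _ sp_unit.2).bot_tensor,
        Category.assoc, Cir.bot_comp, c.bot_tensor]
      infer_instance
    have h3 := tri DC (hL.pw 3) hB hB' Φ _ h2
    rw [hΘ, m.isU₁_iso, Cir.bot_comp, Functor.map_comp, ← Category.assoc, m.isU₁_iso,
      ← m.isU₂_iff, m.isU₂_iso]
    exact hy
  generalize (Φ.hom ≫ w ▷ B') ≫ ν'.hom ≫ y₀ = u at hu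
  obtain ⟨cu, hcu, hcu'⟩ := R.cls_X r (Θ.hom ≫ n ▷ B ≫ u)
  obtain ⟨cy, hcy⟩ := R.cls_Z r (Θ.hom ≫ y₁)
  have h5 := chase Θ (a₂ := aL W 2 ▷ B) (d := d ▷ B) hy₁
    (((comp_whiskerRight _ _ _).symm.trans (congrArg (· ▷ B) hn1)).trans
      (whisk3 _ _ _ _)) hcu hcy
  obtain ⟨z₁, hz₁⟩ := aL_div D 1 _ h5
  have hc₃ := (hc.tensor (hL.pw 1) (l := 3) (by norm_num)).tensor hB (l := 2) (by norm_num)
  rw [Cir.vanish _ (eq_zero_of_sk hc₃.1 r.r5) (eq_zero_of_sk hc₃.2 r.r6) z₁, comp_zero] at hz₁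
  have h6 : cu • (ν.hom ≫ a.α ≫ m.Y.one ≫ m.st 22) = cy • (aL W 2 ▷ B ≫ d ▷ B ≫ u ≫ m.st 22) := by
    refine Eq.trans ?_ (sub_eq_zero.1 hz₁.symm)
    rw [Category.assoc, Category.assoc, Category.assoc, m.st_up_22]
  refine hcu' hu (R.key r a cu ?_)
  have h9 : (R.p ▷ Pw W.s₂.Lr 2 ≫ (λ_ _).hom) ▷ B ≫ ν.hom =
      (α_ _ _ _).hom ≫ R.P ◁ ν.hom ≫ R.p ▷ a.A ≫ (λ_ _).hom := by
    rw [whisker_exchange_assoc, leftUnitor_naturality, comp_whiskerRight,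
      ← associator_naturality_left_assoc, Category.assoc, leftUnitor_tensor_hom,
      Category.assoc, Iso.hom_inv_id_assoc]
  rw [← cancel_epi (R.P ◁ ν.hom), ← cancel_epi (α_ _ _ _).hom, comp_zero, comp_zero,
    Preadditive.comp_zsmul, Preadditive.comp_zsmul, ← reassoc_of% h9, ← Preadditive.comp_zsmul,
    h6, Preadditive.comp_zsmul, ← comp_whiskerRight_assoc, p_aL,
    MonoidalPreadditive.zero_whiskerRight, zero_comp, smul_zero]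

/-- (Q) from the rows -/
theorem stQ_of (jam : JAM) (ald : ∀ W : Tower, W.Geo → ∀ m : Mdl W, Nonempty (AlD m)) : StQ := by
  intro W g m r M A hM ⟨e⟩ θ
  obtain ⟨k, rfl⟩ : 3 ∣ M := Dvd.dvd.trans ⟨3, rfl⟩ hM
  obtain ⟨R⟩ := nonempty_rep g
  obtain ⟨a⟩ := ald W g m
  obtain ⟨y, hy⟩ := R.div r (((sp_sph _).iso e).cancel ((sp_Lr g.c2).pw _) (by ring)) θ
  exact ⟨y, hy, not_unit jam g r a e y⟩

end Vale.Agent.P236Z.Q
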